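import Vale.Agent.P085.H551.Step

set_option autoImplicit false
set_option linter.unusedSectionVars false

open scoped InnerProductSpace Topology ComplexOrder

namespace Vale.Agent.P085.H551

open Vale.Agent.P085 Vale.Agent.P085.H598 TopologicalSpace

variable {H : Type*} [NormedAddCommGroup H] [InnerProductSpace ℂ H] [CompleteSpace H]

/-- pairs of self-adjoint elements with spectra in intervals of lengths `L`, `L'` can be
approximated up to `ε`, `ε'` (and an arbitrarily small error) by generating pairs -/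
def Dns (H : Type*) [NormedAddCommGroup H] [InnerProductSpace ℂ H] [CompleteSpace H]
    (L L' ε ε' : ℝ) : Prop :=
  ∀ Q : VonNeumannAlgebra H, IsII1Factor Q → ∀ a ∈ Q, ∀ b ∈ Q, star a = a → star b = b →
    ∀ l l' : ℝ, 0 ≤ a - sc H l → 0 ≤ sc H (l + L) - a → 0 ≤ b - sc H l' →
      0 ≤ sc H (l' + L') - b → ∀ η : ℝ, 0 < η →
      ∃ a' ∈ Q, ∃ b' ∈ Q, star a' = a' ∧ star b' = b' ∧
        0 ≤ sc H (ε + η) - (a' - a) ∧ 0 ≤ sc H (ε + η) + (a' - a) ∧
        0 ≤ sc H (ε' + η) - (b' - b) ∧ 0 ≤ sc H (ε' + η) + (b' - b) ∧ Gen2 Q a' b'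

theorem Dns.symm {L L' ε ε' : ℝ} (h : Dns H L L' ε ε') : Dns H L' L ε' ε := by
  intro Q hQ a ha b hb has hbs l l' h1 h2 h3 h4 η hη
  obtain ⟨b', hb', a', ha', hbs', has', k1, k2, k3, k4, hg⟩ :=
    h Q hQ b hb a ha hbs has l' l h3 h4 h1 h2 η hη
  exact ⟨a', ha', b', hb', has', hbs', k3, k4, k1, k2, fun N h1 h2 => hg N h2 h1⟩

/-- near-scalar pairs -/
theorem dns_base [SeparableSpace H] {L L' : ℝ} : Dns H L L' L L' := by
  intro Q hQ a ha b hb has hbs l l' h1 h2 h3 h4 η hη
  obtain ⟨x, hx, y, hy, hxs, hys, hgen⟩ :=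
    exists_pair_of_isSinglyGenerated (isSinglyGenerated_of_isII1Factor Q hQ)
  obtain ⟨k, hk⟩ : ∃ k : ℝ, k = η / (‖x‖ + ‖y‖ + 1) := ⟨_, rfl⟩
  have hD : 0 < ‖x‖ + ‖y‖ + 1 := by positivity
  have hk0 : 0 < k := hk ▸ div_pos hη hD
  have hkD : k * (‖x‖ + ‖y‖ + 1) = η := by rw [hk]; exact div_mul_cancel₀ _ hD.ne'
  have hkc : (k : ℂ) ≠ 0 := by exact_mod_cast hk0.ne'
  have hst : ∀ u : H →L[ℂ] H, star u = u → star ((k : ℂ) • u) = (k : ℂ) • u := by
    intro u hu
    rw [star_smul, hu]; simp only [RCLike.star_def, Complex.conj_ofReal]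
  have hn : ∀ u : H →L[ℂ] H, ‖u‖ ≤ ‖x‖ + ‖y‖ + 1 → ‖(k : ℂ) • u‖ ≤ η := by
    intro u hu
    rw [norm_smul, Complex.norm_real, Real.norm_eq_abs, abs_of_pos hk0, ← hkD]
    exact mul_le_mul_of_nonneg_left hu hk0.le
  have hnx := hn x (by linarith [norm_nonneg y])
  have hny := hn y (by linarith [norm_nonneg x])
  have key : ∀ u c : H →L[ℂ] H, ∀ r R : ℝ, star u = u → ‖(k : ℂ) • u‖ ≤ η → 0 ≤ c - sc H r →
      0 ≤ sc H (r + R) - c → 0 ≤ sc H (R + η) - (sc H r + (k : ℂ) • u - c) ∧
      0 ≤ sc H (R + η) + (sc H r + (k : ℂ) • u - c) := by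
    intro u c r R hu hun hc1 hc2
    have hR : 0 ≤ sc H (r + R) - sc H r := by
      have := add_nonneg hc1 hc2
      have e : c - sc H r + (sc H (r + R) - c) = sc H (r + R) - sc H r := by abel
      rwa [e] at this
    have q1 := sc_sub_nonneg (c := η) (hst u hu) hun
    have q2 := sc_add_nonneg (c := η) (hst u hu) hun
    constructor
    · have e : sc H (R + η) - (sc H r + (k : ℂ) • u - c) =
          (c - sc H r) + (sc H (r + R) - sc H r) + (sc H η - (k : ℂ) • u) := by
        rw [sc_add, sc_add]; abel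
      rw [e]
      exact add_nonneg (add_nonneg hc1 hR) q1
    · have e : sc H (R + η) + (sc H r + (k : ℂ) • u - c) =
          (sc H (r + R) - c) + (sc H η + (k : ℂ) • u) := by
        rw [sc_add, sc_add]; abel
      rw [e]
      exact add_nonneg hc2 q2
  obtain ⟨p1, p2⟩ := key x a l L hxs hnx h1 h2
  obtain ⟨p3, p4⟩ := key y b l' L' hys hny h3 h4
  refine ⟨sc H l + (k : ℂ) • x, add_mem (sc_mem Q _) (vn_smul_mem Q _ hx),
    sc H l' + (k : ℂ) • y, add_mem (sc_mem Q _) (vn_smul_mem Q _ hy),
    by rw [star_add, sc_star, hst x hxs], by rw [star_add, sc_star, hst y hys],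
    p1, p2, p3, p4, ?_⟩
  intro N hxN hyN
  have dec : ∀ u : H →L[ℂ] H, ∀ r : ℝ, sc H r + (k : ℂ) • u ∈ N → u ∈ N := by
    intro u r h
    have h1 := sub_mem h (sc_mem N r)
    rw [add_sub_cancel_left] at h1
    have h2 := vn_smul_mem N ((k : ℂ)⁻¹) h1
    rwa [smul_smul, inv_mul_cancel₀ hkc, one_smul] at h2
  exact hgen N (dec x l hxN) (dec y l' hyN)

section units

variable {Q : VonNeumannAlgebra H} {e : H →L[ℂ] H} (he2 : e * e = 0)
  (hee : e * star e + star e * e = 1)

include he2 hee

theorem nonneg_of_P {x : H →L[ℂ] H} (hx : x ∈ relComm Q e) (h : 0 ≤ x * (e * star e)) :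
    0 ≤ x := by
  have h1 := star_left_conjugate_nonneg h e
  have h2 : star e * (x * (e * star e)) * e = x * (star e * e) := by
    calc star e * (x * (e * star e)) * e = (star e * x) * (e * star e * e) := by
          simp only [mul_assoc]
      _ = x * (star e * e) := by rw [mu_ese he2 hee, ← hx.2.2, mul_assoc]
  rw [h2] at h1
  have h3 := add_nonneg h h1
  rwa [← mul_add, hee, mul_one] at h3

theorem nonneg_of_R {x : H →L[ℂ] H} (hx : x ∈ relComm Q e) (h : 0 ≤ x * (star e * e)) :
    0 ≤ x := by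
  have h1 := star_right_conjugate_nonneg h e
  have h2 : e * (x * (star e * e)) * star e = x * (e * star e) := by
    calc e * (x * (star e * e)) * star e = (e * x) * (star e * e * star e) := by
          simp only [mul_assoc]
      _ = x * (e * star e) := by rw [mu_ses he2 hee, ← hx.2.1, mul_assoc]
  rw [h2] at h1
  have h3 := add_nonneg h1 h
  rwa [← mul_add, hee, mul_one] at h3

theorem nonneg_blocks {x y : H →L[ℂ] H} (hx : x ∈ relComm Q e) (hy : y ∈ relComm Q e)
    (hx0 : 0 ≤ x) (hy0 : 0 ≤ y) : 0 ≤ x * (e * star e) + y * (star e * e) := by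
  have h1 : star (e * star e) = e * star e := by rw [star_mul, star_star]
  have h2 : star (star e * e) = star e * e := by rw [star_mul, star_star]
  refine add_nonneg (nonneg_mul_proj hx0 h1 (mu_P_sq he2 hee) ?_)
    (nonneg_mul_proj hy0 h2 ?_ ?_)
  · rw [← mul_assoc, hx.2.1, mul_assoc, hx.2.2, mul_assoc]
  · rw [← mul_assoc, mu_ses he2 hee]
  · rw [← mul_assoc, hy.2.2, mul_assoc, hy.2.1, mul_assoc]

end units

/-- the induction step for a projection on which `a` has half the oscillation -/
theorem dns_step_aux {L L' ε ε' : ℝ} (hε' : 0 ≤ ε') (h : Dns H (L / 2) L' ε ε')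
    (Q : VonNeumannAlgebra H) (hQ : IsII1Factor Q) {t : (H →L[ℂ] H) → ℂ} (hII : IsII1 Q t)
    {a b P : H →L[ℂ] H} (ha : a ∈ Q) (hb : b ∈ Q) (has : star a = a) (hbs : star b = b)
    (hP : P ∈ Q) (hPs : star P = P) (hPP : P * P = P) (haP : a * P = P * a) (htP : t P = 1 / 2)
    {l l' s : ℝ} (h1 : 0 ≤ (a - sc H l) * P) (h2 : 0 ≤ (sc H (l + L / 2) - a) * P)
    (h3 : 0 ≤ b - sc H l') (h4 : 0 ≤ sc H (l' + L') - b)
    (hs : (0 ≤ (a - sc H s) * P ∧ 0 ≤ (sc H s - a) * (1 - P)) ∨
      (0 ≤ (sc H s - a) * P ∧ 0 ≤ (a - sc H s) * (1 - P))) {η : ℝ} (hη : 0 < η) :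
    ∃ a' ∈ Q, ∃ b' ∈ Q, star a' = a' ∧ star b' = b' ∧
        0 ≤ sc H (ε + η) - (a' - a) ∧ 0 ≤ sc H (ε + η) + (a' - a) ∧
        0 ≤ sc H (ε' + η) - (b' - b) ∧ 0 ≤ sc H (ε' + η) + (b' - b) ∧ Gen2 Q a' b' := by
  obtain ⟨e, heQ, he2, he1, he1', z, hz, hz0, hzb⟩ :=
    exists_split_at Q hII.trace hII.fac hP hPs hPP htP hb
  have hee : e * star e + star e * e = 1 := by rw [he1, he1']; abel
  obtain ⟨A, hA, D, hD, hAs, hDs, hae⟩ := exists_entries_diag he2 hee heQ ha has
    (by rw [he1]; exact haP)
  obtain ⟨B, hB, B1, hB1, B2, hB2, hBs, hB2s, hbe⟩ := exists_entries_sa he2 hee heQ hb hbs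
  have hBz : B1 = z := by
    apply entry_eq he2 hee heQ hB hB1 (star_mem hB1) hB2 hz
    rw [← hbe]; exact hzb
  have hzs : star z = z := (IsSelfAdjoint.of_nonneg hz0).star_eq
  rw [hBz, hzs] at hbe
  have hQ' := isII1Factor_relComm hQ he2 hee heQ
  have hRe : star e * e = 1 - e * star e := (mu_one_sub hee).symm
  have hPP' : e * star e * (e * star e) = e * star e := mu_P_sq he2 hee
  have hPs' : star (e * star e) = e * star e := by rw [star_mul, star_star]
  have hRs' : star (star e * e) = star e * e := by rw [star_mul, star_star]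
  have hRP : star e * e * (e * star e) = 0 := by
    rw [mul_assoc, ← mul_assoc e, he2, zero_mul, mul_zero]
  have hPR : e * star e * (star e * e) = 0 := by
    rw [mul_assoc, ← mul_assoc (star e), mu_star_sq he2, zero_mul, mul_zero]
  have hRR : star e * e * (star e * e) = star e * e := by
    rw [← mul_assoc, mu_ses he2 hee]
  have cP : ∀ x ∈ relComm Q e, x * (e * star e) = e * star e * x := fun x hx => by
    rw [← mul_assoc, hx.2.1, mul_assoc, hx.2.2, mul_assoc]
  have cR : ∀ x ∈ relComm Q e, x * (star e * e) = star e * e * x := fun x hx => by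
    rw [← mul_assoc, hx.2.2, mul_assoc, hx.2.1, mul_assoc]
  have scm : ∀ c : ℝ, sc H c ∈ relComm Q e := fun c => sc_mem _ c
  have haP' : a * (e * star e) = A * (e * star e) := by
    rw [hae, add_mul, mul_assoc, hPP', mul_assoc, hRP, mul_zero, add_zero]
  have haR' : a * (star e * e) = D * (star e * e) := by
    rw [hae, add_mul, mul_assoc, hPR, mul_assoc, hRR, mul_zero, zero_add]
  have hbP : e * star e * b * (e * star e) = B * (e * star e) := by
    have t1 : e * star e * (B * (e * star e)) * (e * star e) = B * (e * star e) := by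
      rw [cP B hB, ← mul_assoc (e * star e), hPP', mul_assoc, cP B hB, ← mul_assoc (e * star e), hPP']
    have t2 : e * star e * (z * e) * (e * star e) = 0 := by
      rw [mul_assoc, mul_assoc z, ← mul_assoc e, he2, zero_mul, mul_zero, mul_zero]
    have t3 : e * star e * (z * star e) * (e * star e) = 0 := by
      rw [← mul_assoc (e * star e), ← cP z hz, mul_assoc z, mul_assoc e, mu_star_sq he2, mul_zero,
        mul_zero, zero_mul]
    have t4 : e * star e * (B2 * (star e * e)) * (e * star e) = 0 := by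
      rw [mul_assoc, mul_assoc B2, hRP, mul_zero, mul_zero]
    rw [hbe, mul_add, mul_add, mul_add, add_mul, add_mul, add_mul, t1, t2, t3, t4, add_zero,
      add_zero, add_zero]
  have upP : ∀ r : ℝ, 0 ≤ (a - sc H r) * P → 0 ≤ A - sc H r := by
    intro r hr
    apply nonneg_of_P he2 hee (sub_mem hA (scm r))
    rwa [← he1, sub_mul, haP', ← sub_mul] at hr
  have loP : ∀ r : ℝ, 0 ≤ (sc H r - a) * P → 0 ≤ sc H r - A := by
    intro r hr
    apply nonneg_of_P he2 hee (sub_mem (scm r) hA)
    rwa [← he1, sub_mul, haP', ← sub_mul] at hr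
  have upR : ∀ r : ℝ, 0 ≤ (a - sc H r) * (1 - P) → 0 ≤ D - sc H r := by
    intro r hr
    apply nonneg_of_R he2 hee (sub_mem hD (scm r))
    rwa [← he1', sub_mul, haR', ← sub_mul] at hr
  have loR : ∀ r : ℝ, 0 ≤ (sc H r - a) * (1 - P) → 0 ≤ sc H r - D := by
    intro r hr
    apply nonneg_of_R he2 hee (sub_mem (scm r) hD)
    rwa [← he1', sub_mul, haR', ← sub_mul] at hr
  have upB : 0 ≤ B - sc H l' := by
    apply nonneg_of_P he2 hee (sub_mem hB (scm _))
    have h5 := star_left_conjugate_nonneg h3 (e * star e)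
    rwa [hPs', mul_sub, sub_mul, hbP, ← cP _ (scm l'), mul_assoc, hPP', ← sub_mul] at h5
  have loB : 0 ≤ sc H (l' + L') - B := by
    apply nonneg_of_P he2 hee (sub_mem (scm _) hB)
    have h5 := star_left_conjugate_nonneg h4 (e * star e)
    rwa [hPs', mul_sub, sub_mul, hbP, ← cP _ (scm (l' + L')), mul_assoc, hPP', ← sub_mul] at h5
  obtain ⟨α, hα, β, hβ, hαs, hβs, k1, k2, k3, k4, hgen⟩ :=
    h (relComm Q e) hQ' A hA B hB hAs hBs l l' (upP l h1) (loP _ h2) upB loB (η / 2) (by linarith)
  have hη2 : ε + η = (ε + η / 2) + η / 2 := by ring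
  have hη2' : ε' + η = (ε' + η / 2) + η / 2 := by ring
  have scη : (0 : H →L[ℂ] H) ≤ sc H (η / 2) := sc_nonneg (by linarith)
  -- the other corner of `a`
  obtain ⟨α', hα', hα's, m1, m2, hsep⟩ : ∃ α' ∈ relComm Q e, star α' = α' ∧
      0 ≤ sc H (ε + η) - (α' - D) ∧ 0 ≤ sc H (ε + η) + (α' - D) ∧
      ∀ T : H →L[ℂ] H, α * T = T * α' → T = 0 := by
    have hε2 : 0 ≤ sc H (ε + η / 2) + sc H (ε + η / 2) := by
      have := add_nonneg k1 k2
      have e0 : sc H (ε + η / 2) - (α - A) + (sc H (ε + η / 2) + (α - A)) =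
        sc H (ε + η / 2) + sc H (ε + η / 2) := by abel
      rwa [e0] at this
    have hε3 : 0 ≤ sc H (ε + η) + sc H (ε + η) := by
      have e0 : sc H (ε + η) + sc H (ε + η) =
        (sc H (ε + η / 2) + sc H (ε + η / 2)) + (sc H (η / 2) + sc H (η / 2)) := by
        rw [hη2, sc_add (ε + η / 2)]; abel
      rw [e0]
      exact add_nonneg hε2 (add_nonneg scη scη)
    rcases hs with ⟨s1, s2⟩ | ⟨s1, s2⟩
    · have a1 := upP s s1
      have a2 := loR s s2
      refine ⟨D - sc H (ε + η), sub_mem hD (scm _), by rw [star_sub, hDs, sc_star], ?_, ?_, ?_⟩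
      · have e0 : sc H (ε + η) - (D - sc H (ε + η) - D) = sc H (ε + η) + sc H (ε + η) := by abel
        rw [e0]; exact hε3
      · have e0 : sc H (ε + η) + (D - sc H (ε + η) - D) = 0 := by abel
        rw [e0]
      · intro T hT
        have hn : ∀ c : ℝ, sc H (-c) = - sc H c := fun c => by
          unfold sc; push_cast; rw [neg_smul]
        apply sylvester (α := -α) (β := -(D - sc H (ε + η))) (c := -(s - (ε + η / 2)))
          (d := -(s - (ε + η))) (by linarith)
        · have e0 : sc H (-(s - (ε + η / 2))) - -α =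
              (A - sc H s) + (sc H (ε + η / 2) + (α - A)) := by
            rw [hn, sc_sub]; abel
          rw [e0]; exact add_nonneg a1 k2
        · have e0 : -(D - sc H (ε + η)) - sc H (-(s - (ε + η))) = sc H s - D := by
            rw [hn, sc_sub]; abel
          rw [e0]; exact a2
        · rw [neg_mul, hT, mul_neg]
    · have a1 := loP s s1
      have a2 := upR s s2
      refine ⟨D + sc H (ε + η), add_mem hD (scm _), by rw [star_add, hDs, sc_star], ?_, ?_, ?_⟩
      · have e0 : sc H (ε + η) - (D + sc H (ε + η) - D) = 0 := by abel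
        rw [e0]
      · have e0 : sc H (ε + η) + (D + sc H (ε + η) - D) = sc H (ε + η) + sc H (ε + η) := by abel
        rw [e0]; exact hε3
      · intro T hT
        apply sylvester (α := α) (β := D + sc H (ε + η)) (c := s + (ε + η / 2))
          (d := s + (ε + η)) (by linarith)
        · have e0 : sc H (s + (ε + η / 2)) - α =
              (sc H s - A) + (sc H (ε + η / 2) - (α - A)) := by
            rw [sc_add]; abel
          rw [e0]; exact add_nonneg a1 k1
        · have e0 : D + sc H (ε + η) - sc H (s + (ε + η)) = D - sc H s := by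
            rw [sc_add s]; abel
          rw [e0]; exact a2
        · exact hT
  have hes : star (star e) = e := star_star e
  have hα2 := cP α hα
  have hα3 := cR α' hα'
  have hβ2 := cP β hβ
  have hB22 := cR B2 hB2
  obtain ⟨w, hw⟩ : ∃ w, w = z + sc H (η / 2) := ⟨_, rfl⟩
  have hwR : w ∈ relComm Q e := by rw [hw]; exact add_mem hz (scm _)
  have hws : star w = w := by rw [hw, star_add, hzs, sc_star]
  have heQ' := star_mem heQ
  have huu : (e + star e) * (e + star e) = 1 := by
    rw [add_mul, mul_add, mul_add, he2, mu_star_sq he2, zero_add, add_zero, hee]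
  have hu1 : (0 : H →L[ℂ] H) ≤ 1 - (e + star e) := by
    have e0 : (1 : H →L[ℂ] H) - (e + star e) =
        ((1 / 2 : ℝ) : ℂ) • (star (1 - (e + star e)) * (1 - (e + star e))) := by
      have e1 : star (1 - (e + star e)) = 1 - (e + star e) := by
        rw [star_sub, star_one, star_add, hes, add_comm (star e)]
      rw [e1, mul_sub, mul_one, sub_mul, one_mul, huu]
      push_cast; module
    rw [e0]; exact smul_nonneg' (by norm_num) (star_mul_self_nonneg _)
  have hu2 : (0 : H →L[ℂ] H) ≤ 1 + (e + star e) := by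
    have e0 : (1 : H →L[ℂ] H) + (e + star e) =
        ((1 / 2 : ℝ) : ℂ) • (star (1 + (e + star e)) * (1 + (e + star e))) := by
      have e1 : star (1 + (e + star e)) = 1 + (e + star e) := by
        rw [star_add, star_one, star_add, hes, add_comm (star e)]
      rw [e1, mul_add, mul_one, add_mul, one_mul, huu]
      push_cast; module
    rw [e0]; exact smul_nonneg' (by norm_num) (star_mul_self_nonneg _)
  refine ⟨α * (e * star e) + α' * (star e * e),
    add_mem (mul_mem hα.1 (mul_mem heQ heQ')) (mul_mem hα'.1 (mul_mem heQ' heQ)),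
    β * (e * star e) + w * e + w * star e + B2 * (star e * e), ?_, ?_, ?_, ?_, ?_, ?_, ?_, ?_⟩
  · exact add_mem (add_mem (add_mem (mul_mem hβ.1 (mul_mem heQ heQ')) (mul_mem hwR.1 heQ))
      (mul_mem hwR.1 heQ')) (mul_mem hB2.1 (mul_mem heQ' heQ))
  · rw [star_add, star_mul α, star_mul α', hPs', hRs', hαs, hα's, ← hα2, ← hα3]
  · have g1 : star (w * e) = w * star e := by rw [star_mul, hws, ← hwR.2.2]
    have g2 : star (w * star e) = w * e := by rw [star_mul, hws, hes, ← hwR.2.1]
    have g3 : star (β * (e * star e)) = β * (e * star e) := by rw [star_mul β, hPs', hβs, ← hβ2]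
    have g4 : star (B2 * (star e * e)) = B2 * (star e * e) := by
      rw [star_mul B2, hRs', hB2s, ← hB22]
    rw [star_add, star_add, star_add, g1, g2, g3, g4]
    abel
  · have e0 : sc H (ε + η) - (α * (e * star e) + α' * (star e * e) - a) =
        (sc H (ε + η) - (α - A)) * (e * star e) + (sc H (ε + η) - (α' - D)) * (star e * e) := by
      have e1 : sc H (ε + η) = sc H (ε + η) * (e * star e) + sc H (ε + η) * (star e * e) := by
        rw [← mul_add, hee, mul_one]
      calc sc H (ε + η) - (α * (e * star e) + α' * (star e * e) - a) =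
          (sc H (ε + η) * (e * star e) + sc H (ε + η) * (star e * e)) -
            (α * (e * star e) + α' * (star e * e) - (A * (e * star e) + D * (star e * e))) := by
              rw [← e1, ← hae]
        _ = _ := by simp only [sub_mul]; abel
    rw [e0]
    refine nonneg_blocks he2 hee (sub_mem (scm _) (sub_mem hα hA))
      (sub_mem (scm _) (sub_mem hα' hD)) ?_ m1
    have e2 : sc H (ε + η) - (α - A) = (sc H (ε + η / 2) - (α - A)) + sc H (η / 2) := by
      rw [hη2, sc_add (ε + η / 2)]; abel
    rw [e2]; exact add_nonneg k1 scη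
  · have e0 : sc H (ε + η) + (α * (e * star e) + α' * (star e * e) - a) =
        (sc H (ε + η) + (α - A)) * (e * star e) + (sc H (ε + η) + (α' - D)) * (star e * e) := by
      have e1 : sc H (ε + η) = sc H (ε + η) * (e * star e) + sc H (ε + η) * (star e * e) := by
        rw [← mul_add, hee, mul_one]
      calc sc H (ε + η) + (α * (e * star e) + α' * (star e * e) - a) =
          (sc H (ε + η) * (e * star e) + sc H (ε + η) * (star e * e)) +
            (α * (e * star e) + α' * (star e * e) - (A * (e * star e) + D * (star e * e))) := by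
              rw [← e1, ← hae]
        _ = _ := by simp only [sub_mul, add_mul]; abel
    rw [e0]
    refine nonneg_blocks he2 hee (add_mem (scm _) (sub_mem hα hA))
      (add_mem (scm _) (sub_mem hα' hD)) ?_ m2
    have e2 : sc H (ε + η) + (α - A) = (sc H (ε + η / 2) + (α - A)) + sc H (η / 2) := by
      rw [hη2, sc_add (ε + η / 2)]; abel
    rw [e2]; exact add_nonneg k2 scη
  · have e0 : sc H (ε' + η) - (β * (e * star e) + w * e + w * star e + B2 * (star e * e) - b) =
        ((sc H (ε' + η / 2) - (β - B)) * (e * star e) + sc H (ε' + η / 2) * (star e * e)) +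
          ((η / 2 : ℝ) : ℂ) • (1 - (e + star e)) := by
      have e1 : sc H (ε' + η) = sc H (ε' + η / 2) * (e * star e) + sc H (ε' + η / 2) * (star e * e) +
          ((η / 2 : ℝ) : ℂ) • (1 : H →L[ℂ] H) := by
        rw [← mul_add, hee, mul_one, hη2', sc_add (ε' + η / 2)]; rfl
      calc sc H (ε' + η) - (β * (e * star e) + w * e + w * star e + B2 * (star e * e) - b) =
          (sc H (ε' + η / 2) * (e * star e) + sc H (ε' + η / 2) * (star e * e) +
          ((η / 2 : ℝ) : ℂ) • (1 : H →L[ℂ] H)) - (β * (e * star e) + w * e + w * star e +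
            B2 * (star e * e) - (B * (e * star e) + z * e + z * star e + B2 * (star e * e))) := by
              rw [← e1, ← hbe]
        _ = _ := by
            have f1 : w * e = z * e + ((η / 2 : ℝ) : ℂ) • e := by rw [hw, add_mul, sc_mul]
            have f2 : w * star e = z * star e + ((η / 2 : ℝ) : ℂ) • star e := by
              rw [hw, add_mul, sc_mul]
            rw [f1, f2, smul_sub, smul_add]; simp only [sub_mul]; abel
    rw [e0]
    refine add_nonneg (nonneg_blocks he2 hee (sub_mem (scm _) (sub_mem hβ hB)) (scm _) k3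
      (sc_nonneg (by linarith))) (smul_nonneg' (by linarith) hu1)
  · have e0 : sc H (ε' + η) + (β * (e * star e) + w * e + w * star e + B2 * (star e * e) - b) =
        ((sc H (ε' + η / 2) + (β - B)) * (e * star e) + sc H (ε' + η / 2) * (star e * e)) +
          ((η / 2 : ℝ) : ℂ) • (1 + (e + star e)) := by
      have e1 : sc H (ε' + η) = sc H (ε' + η / 2) * (e * star e) + sc H (ε' + η / 2) * (star e * e) +
          ((η / 2 : ℝ) : ℂ) • (1 : H →L[ℂ] H) := by
        rw [← mul_add, hee, mul_one, hη2', sc_add (ε' + η / 2)]; rfl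
      calc sc H (ε' + η) + (β * (e * star e) + w * e + w * star e + B2 * (star e * e) - b) =
          (sc H (ε' + η / 2) * (e * star e) + sc H (ε' + η / 2) * (star e * e) +
          ((η / 2 : ℝ) : ℂ) • (1 : H →L[ℂ] H)) + (β * (e * star e) + w * e + w * star e +
            B2 * (star e * e) - (B * (e * star e) + z * e + z * star e + B2 * (star e * e))) := by
              rw [← e1, ← hbe]
        _ = _ := by
            have f1 : w * e = z * e + ((η / 2 : ℝ) : ℂ) • e := by rw [hw, add_mul, sc_mul]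
            have f2 : w * star e = z * star e + ((η / 2 : ℝ) : ℂ) • star e := by
              rw [hw, add_mul, sc_mul]
            rw [f1, f2, smul_add, smul_add]; simp only [add_mul, sub_mul]; abel
    rw [e0]
    refine add_nonneg (nonneg_blocks he2 hee (add_mem (scm _) (sub_mem hβ hB)) (scm _) k4
      (sc_nonneg (by linarith))) (smul_nonneg' (by linarith) hu2)
  · rw [hw]
    exact gen_step he2 hee heQ hα hα' hβ hB2 hz hz0 (by linarith) hsep hgen

end Vale.Agent.P085.H551
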