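import Vale.Agent.P085.H551.Dense

set_option autoImplicit false
set_option linter.unusedSectionVars false

open scoped InnerProductSpace Topology ComplexOrder

namespace Vale.Agent.P085.H551

open Vale.Agent.P085 Vale.Agent.P085.H598 TopologicalSpace

variable {H : Type*} [NormedAddCommGroup H] [InnerProductSpace ℂ H] [CompleteSpace H]

theorem dns_step {L L' ε ε' : ℝ} (hε' : 0 ≤ ε') (h : Dns H (L / 2) L' ε ε') :
    Dns H L L' ε ε' := by
  intro Q hQ a ha b hb has hbs l l' h1 h2 h3 h4 η hη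
  obtain ⟨ξ, -, hII⟩ := hQ.isII1
  obtain ⟨P, hP, hPs, hPP, haP, htP, s, s1, s2⟩ :=
    exists_ordered_half Q hII.trace hII.noMin ha has
  change 0 ≤ (a - sc H s) * P at s1
  change 0 ≤ (sc H s - a) * (1 - P) at s2
  have hP1s : star (1 - P) = 1 - P := by rw [star_sub, star_one, hPs]
  have hP1P : (1 - P) * (1 - P) = 1 - P := by
    rw [mul_sub, mul_one, sub_mul, one_mul, hPP, sub_self, sub_zero]
  have haP1 : a * (1 - P) = (1 - P) * a := by rw [mul_sub, sub_mul, mul_one, one_mul, haP]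
  by_cases hc : l + L ≤ s + L / 2
  · refine dns_step_aux hε' h Q hQ hII ha hb has hbs hP hPs hPP haP htP (l := s) s1 ?_ h3 h4
      (Or.inl ⟨s1, s2⟩) hη
    apply nonneg_mul_proj _ hPs hPP
    · rw [sub_mul, mul_sub, haP, sc_comm]
    · have e0 : sc H (s + L / 2) - a = (sc H (l + L) - a) + sc H (s + L / 2 - (l + L)) := by
        rw [sc_sub]; abel
      rw [e0]
      exact add_nonneg h2 (sc_nonneg (by linarith))
  · have hc' : s ≤ l + L / 2 := by linarith
    refine dns_step_aux hε' h Q hQ hII ha hb has hbs (sub_mem (one_mem Q) hP) hP1s hP1P haP1 ?_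
      (l := l) ?_ ?_ h3 h4 (Or.inr ⟨s2, ?_⟩) hη
    · rw [hII.trace.sub (one_mem Q) hP, hII.trace.one, htP]; norm_num
    · apply nonneg_mul_proj h1 hP1s hP1P
      rw [sub_mul, mul_sub (1 - P), haP1, sc_comm]
    · have e0 : (sc H (l + L / 2) - a) * (1 - P) = (sc H s - a) * (1 - P) +
          sc H (l + L / 2 - s) * (1 - P) := by
        rw [← add_mul]
        congr 1
        rw [sc_sub]; abel
      rw [e0]
      refine add_nonneg s2 (nonneg_mul_proj (sc_nonneg (by linarith)) hP1s hP1P (sc_comm _ _))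
    · rwa [sub_sub_cancel]

theorem dns_pow {L L' ε ε' : ℝ} (hε' : 0 ≤ ε') : ∀ k : ℕ, Dns H (L / 2 ^ k) L' ε ε' →
    Dns H L L' ε ε' := by
  intro k
  induction k with
  | zero => intro h; simpa using h
  | succ k ih =>
    intro h
    apply ih
    apply dns_step hε'
    have e0 : L / 2 ^ k / 2 = L / 2 ^ (k + 1) := by rw [pow_succ, div_div]
    rwa [e0]

theorem dns_all [SeparableSpace H] {L L' : ℝ} (hL : 0 ≤ L) (hL' : 0 ≤ L') (k : ℕ) :
    Dns H L L' (L / 2 ^ k) (L' / 2 ^ k) := by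
  have h0 : Dns H (L / 2 ^ k) (L' / 2 ^ k) (L / 2 ^ k) (L' / 2 ^ k) := dns_base
  have h1 := (dns_pow (L := L) (by positivity) k h0).symm
  exact (dns_pow (L := L') (by positivity) k h1).symm

/-- pairs of self-adjoint generators are norm dense -/
theorem dense_pairs [SeparableSpace H] {M : VonNeumannAlgebra H} (hM : IsII1Factor M)
    {a b : H →L[ℂ] H} (ha : a ∈ M) (hb : b ∈ M) (has : star a = a) (hbs : star b = b)
    {ε : ℝ} (hε : 0 < ε) :
    ∃ a' ∈ M, ∃ b' ∈ M, star a' = a' ∧ star b' = b' ∧ ‖a' - a‖ ≤ ε ∧ ‖b' - b‖ ≤ ε ∧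
      Gen2 M a' b' := by
  obtain ⟨k, hk⟩ : ∃ k : ℕ, (2 * ‖a‖ + 2 * ‖b‖) / (ε / 2) < 2 ^ k :=
    pow_unbounded_of_one_lt _ one_lt_two
  have h2k : (0 : ℝ) < 2 ^ k := by positivity
  rw [div_lt_iff₀ (by positivity)] at hk
  have hka : 2 * ‖a‖ / 2 ^ k ≤ ε / 2 := by
    rw [div_le_iff₀ h2k]; nlinarith [norm_nonneg b]
  have hkb : 2 * ‖b‖ / 2 ^ k ≤ ε / 2 := by
    rw [div_le_iff₀ h2k]; nlinarith [norm_nonneg a]
  have hD := dns_all (H := H) (L := 2 * ‖a‖) (L' := 2 * ‖b‖) (by positivity) (by positivity) k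
  have low : ∀ u : H →L[ℂ] H, star u = u → 0 ≤ u - sc H (-‖u‖) := by
    intro u hu
    have := sc_add_nonneg hu (le_refl ‖u‖)
    have e0 : u - sc H (-‖u‖) = sc H ‖u‖ + u := by
      unfold sc; push_cast; rw [neg_smul]; abel
    rwa [e0]
  have upp : ∀ u : H →L[ℂ] H, star u = u → 0 ≤ sc H (-‖u‖ + 2 * ‖u‖) - u := by
    intro u hu
    have := sc_sub_nonneg hu (le_refl ‖u‖)
    have e0 : -‖u‖ + 2 * ‖u‖ = ‖u‖ := by ring
    rwa [e0]
  obtain ⟨a', ha', b', hb', has', hbs', k1, k2, k3, k4, hg⟩ :=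
    hD M hM a ha b hb has hbs _ _ (low a has) (upp a has) (low b hbs) (upp b hbs) (ε / 2)
      (by linarith)
  have hn : ∀ u v : H →L[ℂ] H, ∀ r : ℝ, r ≤ ε / 2 → 0 ≤ r → star u = u → star v = v →
      0 ≤ sc H (r + ε / 2) - (u - v) → 0 ≤ sc H (r + ε / 2) + (u - v) → ‖u - v‖ ≤ ε := by
    intro u v r hr hr0 hu hv q1 q2
    have := norm_le_of_sc (c := r + ε / 2) (by linarith) (by rw [star_sub, hu, hv]) q1 q2
    linarith
  exact ⟨a', ha', b', hb', has', hbs', hn a' a _ hka (by positivity) has' has k1 k2,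
    hn b' b _ hkb (by positivity) hbs' hbs k3 k4, hg⟩

/-- single generators are norm dense -/
theorem dense_generators [SeparableSpace H] {M : VonNeumannAlgebra H} (hM : IsII1Factor M)
    {y : H →L[ℂ] H} (hy : y ∈ M) {ε : ℝ} (hε : 0 < ε) :
    ∃ x ∈ M, ‖x - y‖ < ε ∧ ∀ N : VonNeumannAlgebra H, x ∈ N → M ≤ N := by
  obtain ⟨a, hadef⟩ : ∃ a, a = (1 / 2 : ℂ) • (y + star y) := ⟨_, rfl⟩
  obtain ⟨b, hbdef⟩ : ∃ b, b = (-Complex.I / 2 : ℂ) • (y - star y) := ⟨_, rfl⟩
  have ha : a ∈ M := hadef ▸ vn_smul_mem M _ (add_mem hy (star_mem hy))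
  have hb : b ∈ M := hbdef ▸ vn_smul_mem M _ (sub_mem hy (star_mem hy))
  have has : star a = a := by
    rw [hadef, star_smul, star_add, star_star, add_comm]
    simp only [one_div, star_inv₀, star_ofNat, smul_add]
  have hbs : star b = b := by
    rw [hbdef, star_smul, star_sub, star_star, ← neg_sub y, smul_neg, ← neg_smul]
    congr 1
    simp only [star_div₀, star_neg, RCLike.star_def, Complex.conj_I, neg_neg, star_ofNat,
      Complex.ext_iff, Complex.neg_re, Complex.div_ofNat_re, Complex.I_re, zero_div, neg_zero,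
      Complex.neg_im, Complex.div_ofNat_im, Complex.I_im, one_div, true_and]
    norm_num
  have hyab : y = a + Complex.I • b := by
    rw [hadef, hbdef, smul_smul]
    have : Complex.I * (-Complex.I / 2) = 1 / 2 := by
      rw [mul_div_assoc', mul_neg, Complex.I_mul_I]; norm_num
    rw [this]
    module
  obtain ⟨X, hX, Y, hY, hXs, hYs, n1, n2, hg⟩ :=
    dense_pairs hM ha hb has hbs (ε := ε / 4) (by linarith)
  refine ⟨X + Complex.I • Y, add_mem hX (vn_smul_mem M _ hY), ?_, ?_⟩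
  · have e0 : X + Complex.I • Y - y = (X - a) + Complex.I • (Y - b) := by
      rw [hyab, smul_sub]; abel
    rw [e0]
    calc ‖(X - a) + Complex.I • (Y - b)‖ ≤ ‖X - a‖ + ‖Complex.I • (Y - b)‖ := norm_add_le _ _
      _ = ‖X - a‖ + ‖Y - b‖ := by rw [norm_smul, Complex.norm_I, one_mul]
      _ < ε := by linarith
  · intro N hx
    have hxs : X - Complex.I • Y ∈ N := by
      have := star_mem hx
      rw [star_add, star_smul, hXs, hYs] at this
      simpa only [sub_eq_add_neg, RCLike.star_def, Complex.conj_I, neg_smul] using this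
    apply hg
    · have : X = (1 / 2 : ℂ) • ((X + Complex.I • Y) + (X - Complex.I • Y)) := by module
      rw [this]
      exact vn_smul_mem N _ (add_mem hx hxs)
    · have : Y = (-Complex.I / 2 : ℂ) • ((X + Complex.I • Y) - (X - Complex.I • Y)) := by
        have h1 : (X + Complex.I • Y) - (X - Complex.I • Y) = (2 * Complex.I) • Y := by module
        rw [h1, smul_smul]
        have h2 : -Complex.I / 2 * (2 * Complex.I) = 1 := by
          have := Complex.I_mul_I
          linear_combination -this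
        rw [h2, one_smul]
      rw [this]
      exact vn_smul_mem N _ (sub_mem hx hxs)

end Vale.Agent.P085.H551
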