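import Vale.Agent.P085.H598.Basic

set_option autoImplicit false
set_option linter.unusedSectionVars false

open scoped InnerProductSpace Topology ComplexOrder

namespace Vale.Agent.P085.H551

open Vale.Agent.P085

variable {H : Type*} [NormedAddCommGroup H] [InnerProductSpace ℂ H] [CompleteSpace H]

/-- an extreme point of the set of trace-zero contractions commuting with `a` is a symmetry -/
theorem sq_eq_one_of_extreme (Q : VonNeumannAlgebra H) {t : (H →L[ℂ] H) → ℂ} (ht : IsTraceOn Q t)
    (hmin : NoMinimal Q) {a : H →L[ℂ] H} (ha : a ∈ Q) (has : star a = a) {v : H →L[ℂ] H}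
    (hvQ : v ∈ Q) (hv1 : ‖v‖ ≤ 1) (hvs : star v = v) (hva : a * v = v * a)
    (hext : ∀ x ∈ Q, ‖v + x‖ ≤ 1 → ‖v - x‖ ≤ 1 → star x = x → a * x = x * a → t x = 0 → x = 0) :
    v * v = 1 := by
  -- the defect
  have hvv : v * v ≤ 1 := by
    have := star_mul_self_le_one hv1
    rwa [hvs] at this
  have hg0 : (0 : H →L[ℂ] H) ≤ 1 - v * v := sub_nonneg.2 hvv
  obtain ⟨g, hg⟩ : ∃ g, g = 1 - v * v := ⟨_, rfl⟩
  rw [← hg] at hg0
  have hgQ : g ∈ Q := by rw [hg]; exact sub_mem (one_mem Q) (mul_mem hvQ hvQ)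
  have hgs : star g = g := by rw [hg]; simp only [star_sub, star_one, star_mul, hvs]
  have hga : a * g = g * a := by
    rw [hg, mul_sub, sub_mul, mul_one, one_mul, ← mul_assoc, hva, mul_assoc, hva, mul_assoc]
  obtain ⟨s, hs⟩ : ∃ s, s = CFC.sqrt g := ⟨_, rfl⟩
  have hsQ : s ∈ Q := by rw [hs]; exact sqrt_mem Q hgQ
  have hss : star s = s := by
    rw [hs]; exact (IsSelfAdjoint.of_nonneg (CFC.sqrt_nonneg g)).star_eq
  have hs2 : s * s = g := by rw [hs]; exact CFC.sqrt_mul_sqrt_self g hg0
  have hsa : a * s = s * a := by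
    have h1 : Commute g a := hga.symm
    have h2 : Commute (CFC.sqrt g) a := Commute.cfcₙ_nnreal h1 _
    rw [hs]; exact h2.eq.symm
  -- consequence of extremality
  have hkey1 : ∀ w ∈ Q, star w = w → ‖w‖ ≤ 1 → a * w = w * a → t (g * w) = 0 →
      s * w * s = 0 := by
    intro w hw hws hw1 hwa htw
    have hswQ : s * w * s ∈ Q := mul_mem (mul_mem hsQ hw) hsQ
    have hup : s * w * s ≤ g := by
      have h1 : w ≤ 1 := by
        have h2 : ‖w‖ ≤ 1 := hw1
        have h3 := IsSelfAdjoint.le_algebraMap_norm_self (a := w) hws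
        refine h3.trans ?_
        rw [Algebra.algebraMap_eq_smul_one]
        have h4 : (0 : H →L[ℂ] H) ≤ ((1 - ‖w‖ : ℝ) : ℂ) • (1 : H →L[ℂ] H) :=
          smul_nonneg' (by linarith only [hw1]) zero_le_one
        have h5 : ((1 - ‖w‖ : ℝ) : ℂ) • (1 : H →L[ℂ] H) = 1 - ‖w‖ • (1 : H →L[ℂ] H) := by
          push_cast
          rw [sub_smul, one_smul]
          rfl
        rw [h5] at h4
        exact sub_nonneg.1 h4
      have h2 := star_left_conjugate_le_conjugate h1 s
      rwa [hss, mul_one, hs2] at h2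
    have hlo : -g ≤ s * w * s := by
      have h1 : -w ≤ 1 := by
        have hws' : star (-w) = -w := by rw [star_neg, hws]
        have h3 := IsSelfAdjoint.le_algebraMap_norm_self (a := -w) hws'
        refine h3.trans ?_
        rw [norm_neg, Algebra.algebraMap_eq_smul_one]
        have h4 : (0 : H →L[ℂ] H) ≤ ((1 - ‖w‖ : ℝ) : ℂ) • (1 : H →L[ℂ] H) :=
          smul_nonneg' (by linarith only [hw1]) zero_le_one
        have h5 : ((1 - ‖w‖ : ℝ) : ℂ) • (1 : H →L[ℂ] H) = 1 - ‖w‖ • (1 : H →L[ℂ] H) := by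
          push_cast
          rw [sub_smul, one_smul]
          rfl
        rw [h5] at h4
        exact sub_nonneg.1 h4
      have h2 := star_left_conjugate_le_conjugate h1 s
      rw [hss, mul_one, hs2, mul_neg, neg_mul] at h2
      exact neg_le.1 h2
    have hys : star (s * w * s) = s * w * s := by
      rw [star_mul, star_mul, hss, hws, mul_assoc]
    have hya : a * (s * w * s) = s * w * s * a := by
      rw [← mul_assoc, ← mul_assoc, hsa, mul_assoc s a w, hwa, ← mul_assoc, mul_assoc (s * w) a s,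
        hsa, ← mul_assoc]
    have hty : t (s * w * s) = 0 := by
      rw [ht.comm _ (mul_mem hsQ hw) _ hsQ, ← mul_assoc, hs2, htw]
    -- bounds
    have e1 : (1 : H →L[ℂ] H) - v - ((1 / 2 : ℝ) : ℂ) • g =
        ((1 / 2 : ℝ) : ℂ) • ((1 - v) * (1 - v)) := by
      rw [hg]
      simp only [mul_sub, sub_mul, mul_one, one_mul, smul_sub]
      push_cast
      module
    have e2 : (1 : H →L[ℂ] H) + v - ((1 / 2 : ℝ) : ℂ) • g =
        ((1 / 2 : ℝ) : ℂ) • ((1 + v) * (1 + v)) := by
      rw [hg]
      simp only [mul_sub, sub_mul, mul_add, add_mul, mul_one, one_mul, smul_sub, smul_add]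
      push_cast
      module
    have p1 : (0 : H →L[ℂ] H) ≤ 1 - v - ((1 / 2 : ℝ) : ℂ) • g := by
      rw [e1]
      apply smul_nonneg' (by norm_num)
      have : star (1 - v) * (1 - v) = (1 - v) * (1 - v) := by rw [star_sub, star_one, hvs]
      rw [← this]; exact star_mul_self_nonneg _
    have p2 : (0 : H →L[ℂ] H) ≤ 1 + v - ((1 / 2 : ℝ) : ℂ) • g := by
      rw [e2]
      apply smul_nonneg' (by norm_num)
      have : star (1 + v) * (1 + v) = (1 + v) * (1 + v) := by rw [star_add, star_one, hvs]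
      rw [← this]; exact star_mul_self_nonneg _
    have q1 : (0 : H →L[ℂ] H) ≤ ((1 / 2 : ℝ) : ℂ) • (g - s * w * s) :=
      smul_nonneg' (by norm_num) (sub_nonneg.2 hup)
    have q2 : (0 : H →L[ℂ] H) ≤ ((1 / 2 : ℝ) : ℂ) • (g + s * w * s) := by
      apply smul_nonneg' (by norm_num)
      have := sub_nonneg.2 hlo
      rwa [sub_neg_eq_add, add_comm] at this
    obtain ⟨y, hy⟩ : ∃ y, y = ((1 / 2 : ℝ) : ℂ) • (s * w * s) := ⟨_, rfl⟩
    have hy0 : y = 0 := by
      apply hext y
      · rw [hy]; exact vn_smul_mem Q _ hswQ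
      · apply norm_le_one_of_bounds
        · rw [star_add, hvs, hy, star_smul, hys]; simp only [one_div, Complex.ofReal_inv, Complex.ofReal_ofNat, star_inv₀, star_ofNat]
        · have : (1 : H →L[ℂ] H) + (v + y) = (1 + v - ((1 / 2 : ℝ) : ℂ) • g) +
              ((1 / 2 : ℝ) : ℂ) • (g + s * w * s) := by
            rw [hy, smul_add]; abel
          rw [this]; exact add_nonneg p2 q2
        · have : (1 : H →L[ℂ] H) - (v + y) = (1 - v - ((1 / 2 : ℝ) : ℂ) • g) +
              ((1 / 2 : ℝ) : ℂ) • (g - s * w * s) := by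
            rw [hy, smul_sub]; abel
          rw [this]; exact add_nonneg p1 q1
      · apply norm_le_one_of_bounds
        · rw [star_sub, hvs, hy, star_smul, hys]; simp only [one_div, Complex.ofReal_inv, Complex.ofReal_ofNat, star_inv₀, star_ofNat]
        · have : (1 : H →L[ℂ] H) + (v - y) = (1 + v - ((1 / 2 : ℝ) : ℂ) • g) +
              ((1 / 2 : ℝ) : ℂ) • (g - s * w * s) := by
            rw [hy, smul_sub]; abel
          rw [this]; exact add_nonneg p2 q1
        · have : (1 : H →L[ℂ] H) - (v - y) = (1 - v - ((1 / 2 : ℝ) : ℂ) • g) +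
              ((1 / 2 : ℝ) : ℂ) • (g + s * w * s) := by
            rw [hy, smul_add]; abel
          rw [this]; exact add_nonneg p1 q2
      · rw [hy, star_smul, hys]; simp only [one_div, Complex.ofReal_inv, Complex.ofReal_ofNat, star_inv₀, star_ofNat]
      · rw [hy, mul_smul_comm, smul_mul_assoc, hya]
      · rw [hy, ht.smul _ _ hswQ, hty, mul_zero]
    rw [hy] at hy0
    rcases smul_eq_zero.1 hy0 with h | h
    · norm_num at h
    · exact h
  have hkey2 : ∀ w ∈ Q, star w = w → a * w = w * a → t (g * w) = 0 → s * w * s = 0 := by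
    intro w hw hws hwa htw
    by_cases hw0 : w = 0
    · rw [hw0, mul_zero, zero_mul]
    have hn : ‖w‖ ≠ 0 := norm_ne_zero_iff.2 hw0
    have h1 := hkey1 (((‖w‖⁻¹ : ℝ) : ℂ) • w) (vn_smul_mem Q _ hw)
      (by rw [star_smul, hws]; simp)
      (by
        rw [norm_smul, Complex.norm_real, norm_inv, norm_norm, inv_mul_cancel₀ hn])
      (by rw [mul_smul_comm, smul_mul_assoc, hwa])
      (by rw [mul_smul_comm, ht.smul _ _ (mul_mem hgQ hw), htw, mul_zero])
    rw [mul_smul_comm, smul_mul_assoc] at h1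
    rcases smul_eq_zero.1 h1 with h | h
    · exfalso
      exact inv_ne_zero hn (by exact_mod_cast h)
    · exact h
  by_cases hg00 : g = 0
  · have hv2 : v * v = 1 := by
      rw [hg] at hg00; exact (sub_eq_zero.1 hg00).symm
    exact hv2
  exfalso
  have htg : t g ≠ 0 := fun h => hg00 (ht.eq_zero_of_nonneg hgQ hg0 h)
  have htgim : (t g).im = 0 := ht.im_eq_zero hgQ hgs
  have htgre : ((t g).re : ℂ) = t g := by
    apply Complex.ext <;> simp [htgim]
  have hscal : ∀ w ∈ Q, star w = w → a * w = w * a → ∃ μ : ℝ, s * w * s = (μ : ℂ) • g := by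
    intro w hw hws hwa
    have hswQ : s * w * s ∈ Q := mul_mem (mul_mem hsQ hw) hsQ
    have hys : star (s * w * s) = s * w * s := by
      rw [star_mul, star_mul, hss, hws, mul_assoc]
    have htgw : t (g * w) = t (s * w * s) := by
      rw [ht.comm (s * w) (mul_mem hsQ hw) _ hsQ, ← mul_assoc, hs2]
    have him : (t (g * w)).im = 0 := by rw [htgw]; exact ht.im_eq_zero hswQ hys
    have hre : ((t (g * w)).re : ℂ) = t (g * w) := by
      apply Complex.ext <;> simp [him]
    refine ⟨(t (g * w)).re / (t g).re, ?_⟩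
    have h1 := hkey2 (w - (((t (g * w)).re / (t g).re : ℝ) : ℂ) • 1)
      (sub_mem hw (vn_smul_mem Q _ (one_mem Q)))
      (by rw [star_sub, hws, star_smul, star_one]; simp only [Complex.ofReal_div, star_div₀, RCLike.star_def, Complex.conj_ofReal])
      (by rw [mul_sub, sub_mul, hwa, mul_smul_comm, smul_mul_assoc, mul_one, one_mul])
      (by
        rw [mul_sub, mul_smul_comm, mul_one, ht.sub (mul_mem hgQ hw) (vn_smul_mem Q _ hgQ),
          ht.smul _ _ hgQ]
        push_cast
        rw [hre, htgre, div_mul_cancel₀ _ htg, sub_self])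
    rw [mul_sub, sub_mul, mul_smul_comm, mul_one, smul_mul_assoc, hs2, sub_eq_zero] at h1
    exact h1
  obtain ⟨l, hl⟩ := hscal g hgQ hgs hga
  have hgg : g * g = (l : ℂ) • g := by
    rw [← hl]
    rw [← hs2]; simp only [mul_assoc]
  have hl0 : (l : ℂ) ≠ 0 := by
    intro h
    rw [h, zero_smul] at hgg
    have : star g * g = 0 := by rw [hgs, hgg]
    exact hg00 ((CStarRing.star_mul_self_eq_zero_iff g).1 this)
  obtain ⟨p, hp⟩ : ∃ p, p = ((l : ℂ)⁻¹) • g := ⟨_, rfl⟩
  have hpQ : p ∈ Q := by rw [hp]; exact vn_smul_mem Q _ hgQ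
  have hps : star p = p := by
    rw [hp, star_smul, hgs]; simp
  have hpp : p * p = p := by
    rw [hp, smul_mul_smul_comm, hgg, smul_smul]
    congr 1
    field_simp
  have hgp : g = (l : ℂ) • p := by
    rw [hp, smul_smul, mul_inv_cancel₀ hl0, one_smul]
  obtain ⟨μ, hμ⟩ := hscal a ha has rfl
  have hag : a * g = (μ : ℂ) • g := by
    rw [← hμ, ← hsa, mul_assoc, hs2]
  have hap : a * p = (μ : ℂ) • p := by
    rw [hp, mul_smul_comm, hag, smul_comm]
  have hpa : p * a = (μ : ℂ) • p := by
    have := congrArg star hap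
    rw [star_mul, star_smul, hps, has] at this
    simpa only [Complex.coe_smul, RCLike.star_def, Complex.conj_ofReal] using this
  have hpyp : ∀ y ∈ Q, star y = y → a * y = y * a → ∃ c : ℂ, p * y * p = c • p := by
    intro y hy hys hya
    obtain ⟨ν, hν⟩ := hscal y hy hys hya
    refine ⟨ν, ?_⟩
    have h1 : g * y * g = ((ν : ℂ) * l) • g := by
      calc g * y * g = s * (s * y * s) * s := by rw [← hs2]; simp only [mul_assoc]
        _ = (ν : ℂ) • (s * g * s) := by rw [hν, mul_smul_comm, smul_mul_assoc]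
        _ = ((ν : ℂ) * l) • g := by rw [hl, smul_smul]
    rw [hp, smul_mul_assoc, mul_smul_comm, smul_mul_assoc, h1, smul_smul, smul_smul, smul_smul]
    congr 1
    (clear * - hl0; field_simp)
  have hp0 := hmin p hpQ hps hpp (by
    intro x hx
    obtain ⟨y, hy⟩ : ∃ y, y = p * x * p := ⟨_, rfl⟩
    have hyQ : y ∈ Q := by rw [hy]; exact mul_mem (mul_mem hpQ hx) hpQ
    have hpyp' : p * y * p = y := by
      rw [hy]
      calc p * (p * x * p) * p = (p * p) * x * (p * p) := by simp only [mul_assoc]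
        _ = p * x * p := by rw [hpp]
    have hay : a * y = (μ : ℂ) • y := by
      rw [hy, ← mul_assoc, ← mul_assoc, hap, smul_mul_assoc, smul_mul_assoc]
    have hya : y * a = (μ : ℂ) • y := by
      rw [hy, mul_assoc, hpa, mul_smul_comm]
    have hays : a * star y = star y * a := by
      have h1 := congrArg star hya
      have h2 := congrArg star hay
      rw [star_mul, has, star_smul] at h1
      rw [star_mul, has, star_smul] at h2
      rw [h1, h2]
    obtain ⟨c1, hc1⟩ := hpyp (y + star y) (add_mem hyQ (star_mem hyQ))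
      (by rw [star_add, star_star, add_comm]) (by rw [mul_add, add_mul, hays, hay, hya])
    obtain ⟨c2, hc2⟩ := hpyp (Complex.I • (y - star y))
      (vn_smul_mem Q _ (sub_mem hyQ (star_mem hyQ)))
      (by
        rw [star_smul, star_sub, star_star]
        simp only [Complex.star_def, Complex.conj_I, neg_smul, ← smul_neg, neg_sub])
      (by rw [mul_smul_comm, smul_mul_assoc, mul_sub, sub_mul, hays, hay, hya])
    refine ⟨(c1 - Complex.I * c2) / 2, ?_⟩
    have h3 : p * (star y) * p = star y := by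
      have := congrArg star hpyp'
      simpa only [mul_assoc, star_mul, hps] using this
    rw [mul_add, add_mul, hpyp', h3] at hc1
    rw [mul_smul_comm, smul_mul_assoc, mul_sub, sub_mul, hpyp', h3] at hc2
    rw [← hy]
    have h4 : y = (1 / 2 : ℂ) • (y + star y) + (1 / 2 : ℂ) • (y - star y) := by module
    have h5 : y - star y = (-Complex.I * c2) • p := by
      have h6 : (-Complex.I) • (Complex.I • (y - star y)) = y - star y := by
        rw [smul_smul]; simp
      rw [← h6, hc2, smul_smul]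
    rw [h4, hc1, h5, smul_smul, smul_smul, ← add_smul]
    congr 1
    ring)
  rw [hgp, hp0, smul_zero] at hg00
  exact hg00 rfl

end Vale.Agent.P085.H551
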