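import Vale.Agent.P085.H551.Half

set_option autoImplicit false
set_option linter.unusedSectionVars false

open scoped InnerProductSpace Topology ComplexOrder

namespace Vale.Agent.P085.H551

open Vale.Agent.P085

variable {H : Type*} [NormedAddCommGroup H] [InnerProductSpace ℂ H] [CompleteSpace H]

/-- `A ↦ t (a * A)` is weakly continuous on the unit ball -/
theorem continuousOn_trace_mul (Q : VonNeumannAlgebra H) {t : (H →L[ℂ] H) → ℂ}
    (ht : IsTraceOn Q t) {a : H →L[ℂ] H} (ha : a ∈ Q) :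
    ContinuousOn (fun A : H →WOT[ℂ] H => (t (a * A.toCLM)).re)
      {A | ‖A.toCLM‖ ≤ 1 ∧ A.toCLM ∈ Q} := by
  obtain ⟨n, hn⟩ : ∃ n : ℝ, n = ‖a‖ + 1 := ⟨_, rfl⟩
  have hn0 : 0 < n := by rw [hn]; positivity
  have h1 : ContinuousOn (fun A : H →WOT[ℂ] H =>
      t (ContinuousLinearMapWOT.comp (ContinuousLinearMapWOT.ofCLM ((((n⁻¹ : ℝ) : ℂ)) • a)) A).toCLM)
      {A | ‖A.toCLM‖ ≤ 1 ∧ A.toCLM ∈ Q} := by
    refine ht.normal.comp
      (ContinuousLinearMapWOT.continuous_postcomp _).continuousOn ?_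
    rintro A ⟨hA1, hA2⟩
    refine ⟨?_, mul_mem (vn_smul_mem Q _ ha) hA2⟩
    change ‖((((n⁻¹ : ℝ) : ℂ)) • a) * A.toCLM‖ ≤ 1
    calc ‖((((n⁻¹ : ℝ) : ℂ)) • a) * A.toCLM‖ ≤ ‖((((n⁻¹ : ℝ) : ℂ)) • a)‖ * ‖A.toCLM‖ := norm_mul_le _ _
      _ ≤ 1 * 1 := by
          gcongr
          rw [norm_smul, Complex.norm_real, Real.norm_eq_abs, abs_of_pos (by positivity),
            inv_mul_le_iff₀ hn0, hn]
          linarith
      _ = 1 := one_mul _
  have h2 : ∀ A ∈ {A : H →WOT[ℂ] H | ‖A.toCLM‖ ≤ 1 ∧ A.toCLM ∈ Q},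
      (t (a * A.toCLM)).re = (n • t (ContinuousLinearMapWOT.comp
        (ContinuousLinearMapWOT.ofCLM ((((n⁻¹ : ℝ) : ℂ)) • a)) A).toCLM).re := by
    rintro A ⟨hA1, hA2⟩
    change (t (a * A.toCLM)).re = (n • t (((((n⁻¹ : ℝ) : ℂ)) • a) * A.toCLM)).re
    rw [smul_mul_assoc, ht.smul _ _ (mul_mem ha hA2), Complex.real_smul, ← mul_assoc,
      ← Complex.ofReal_mul, mul_inv_cancel₀ hn0.ne', Complex.ofReal_one, one_mul]
  exact (Complex.continuous_re.comp_continuousOn (h1.const_smul n)).congr h2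

/-- an extreme point of the set of trace-zero contractions commuting with `a` which maximizes
`v ↦ t (a * v)` -/
theorem exists_extreme_max (Q : VonNeumannAlgebra H) {t : (H →L[ℂ] H) → ℂ} (ht : IsTraceOn Q t)
    {a : H →L[ℂ] H} (ha : a ∈ Q) :
    ∃ v ∈ Q, ‖v‖ ≤ 1 ∧ star v = v ∧ a * v = v * a ∧ t v = 0 ∧
      (∀ x ∈ Q, ‖v + x‖ ≤ 1 → ‖v - x‖ ≤ 1 → star x = x → a * x = x * a → t x = 0 → x = 0) ∧
      ∀ w ∈ Q, ‖w‖ ≤ 1 → star w = w → a * w = w * a → t w = 0 →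
        (t (a * w)).re ≤ (t (a * v)).re := by
  have hball : IsCompact {A : H →WOT[ℂ] H | ‖A.toCLM‖ ≤ 1 ∧ A.toCLM ∈ Q} :=
    isCompact_wot_ball.inter_right (isClosed_wot_mem Q)
  have h1 : IsClosed {A : H →WOT[ℂ] H | star A.toCLM = A.toCLM ∧ a * A.toCLM = A.toCLM * a} :=
    isClosed_wot_star.inter (isClosed_wot_comm a a)
  have h2 : IsClosed ({A : H →WOT[ℂ] H | ‖A.toCLM‖ ≤ 1 ∧ A.toCLM ∈ Q} ∩
      (fun A : H →WOT[ℂ] H => t A.toCLM) ⁻¹' {0}) :=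
    ht.normal.preimage_isClosed_of_isClosed hball.isClosed isClosed_singleton
  obtain ⟨K, hK⟩ : ∃ K, K = {A : H →WOT[ℂ] H | (‖A.toCLM‖ ≤ 1 ∧ A.toCLM ∈ Q) ∧
      (star A.toCLM = A.toCLM ∧ a * A.toCLM = A.toCLM * a) ∧
      ((‖A.toCLM‖ ≤ 1 ∧ A.toCLM ∈ Q) ∧ t A.toCLM = 0)} := ⟨_, rfl⟩
  have hKc : IsCompact K := by rw [hK]; exact hball.inter_right (h1.inter h2)
  have hKne : K.Nonempty := ⟨0, by
      rw [hK]
      refine ⟨⟨?_, zero_mem Q⟩, ⟨?_, ?_⟩, ⟨?_, zero_mem Q⟩, ht.zero⟩ <;> simp⟩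
  have hKsub : K ⊆ {A : H →WOT[ℂ] H | ‖A.toCLM‖ ≤ 1 ∧ A.toCLM ∈ Q} := by
    rw [hK]; exact fun A hA => hA.1
  have hφ := (continuousOn_trace_mul Q ht ha).mono hKsub
  obtain ⟨v0, hv0K, hv0⟩ := hKc.exists_isMaxOn hKne hφ
  obtain ⟨m, hm⟩ : ∃ m, m = (t (a * v0.toCLM)).re := ⟨_, rfl⟩
  have hF : IsCompact (K ∩ (fun A : H →WOT[ℂ] H => (t (a * A.toCLM)).re) ⁻¹' {m}) := by
    refine hKc.of_isClosed_subset ?_ Set.inter_subset_left
    exact hφ.preimage_isClosed_of_isClosed hKc.isClosed isClosed_singleton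
  obtain ⟨v, hv⟩ := hF.extremePoints_nonempty ⟨v0, hv0K, hm.symm⟩
  obtain ⟨⟨hvK, hvm⟩, hv5⟩ := hv
  have hvK' := hvK
  rw [hK] at hvK'
  obtain ⟨⟨hv1, hvQ⟩, ⟨hvs, hva⟩, -, hvt⟩ := hvK'
  have hvm' : (t (a * v.toCLM)).re = m := hvm
  have hmax : ∀ w ∈ Q, ‖w‖ ≤ 1 → star w = w → a * w = w * a → t w = 0 →
        (t (a * w)).re ≤ m := by
    intro w hw hw1 hws hwa hwt
    rw [hm]
    have := @hv0 (ContinuousLinearMapWOT.ofCLM w) (by
      rw [hK]; exact ⟨⟨hw1, hw⟩, ⟨hws, hwa⟩, ⟨hw1, hw⟩, hwt⟩)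
    exact this
  refine ⟨v.toCLM, hvQ, hv1, hvs, hva, hvt, fun x hx hx1 hx2 hxs hxa hxt => ?_, fun w hw hw1 hws
    hwa hwt => by rw [hvm']; exact hmax w hw hw1 hws hwa hwt⟩
  have p1 := hmax (v.toCLM + x) (add_mem hvQ hx) hx1 (by rw [star_add, hvs, hxs])
    (by rw [mul_add, add_mul, hva, hxa]) (by rw [ht.add _ hvQ _ hx, hvt, hxt, add_zero])
  have p2 := hmax (v.toCLM - x) (sub_mem hvQ hx) hx2 (by rw [star_sub, hvs, hxs])
    (by rw [mul_sub, sub_mul, hva, hxa]) (by rw [ht.sub hvQ hx, hvt, hxt, sub_zero])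
  have q1 : (t (a * (v.toCLM + x))).re = m + (t (a * x)).re := by
    rw [mul_add, ht.add _ (mul_mem ha hvQ) _ (mul_mem ha hx), Complex.add_re, hvm']
  have q2 : (t (a * (v.toCLM - x))).re = m - (t (a * x)).re := by
    rw [mul_sub, ht.sub (mul_mem ha hvQ) (mul_mem ha hx), Complex.sub_re, hvm']
  have q3 : (t (a * x)).re = 0 := by
    rw [q1] at p1; rw [q2] at p2; linarith
  have key := @hv5 (v + ContinuousLinearMapWOT.ofCLM x)
    ⟨by
      rw [hK]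
      exact ⟨⟨hx1, add_mem hvQ hx⟩, ⟨by
          change star (v.toCLM + x) = v.toCLM + x; rw [star_add, hvs, hxs],
        by change a * (v.toCLM + x) = (v.toCLM + x) * a; rw [mul_add, add_mul, hva, hxa]⟩,
        ⟨hx1, add_mem hvQ hx⟩, by
          change t (v.toCLM + x) = 0
          rw [ht.add _ hvQ _ hx, hvt, hxt, add_zero]⟩, by
      change (t (a * (v.toCLM + x))).re = m
      rw [q1, q3, add_zero]⟩
    (v - ContinuousLinearMapWOT.ofCLM x)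
    ⟨by
      rw [hK]
      exact ⟨⟨hx2, sub_mem hvQ hx⟩, ⟨by
          change star (v.toCLM - x) = v.toCLM - x; rw [star_sub, hvs, hxs],
        by change a * (v.toCLM - x) = (v.toCLM - x) * a; rw [mul_sub, sub_mul, hva, hxa]⟩,
        ⟨hx2, sub_mem hvQ hx⟩, by
          change t (v.toCLM - x) = 0
          rw [ht.sub hvQ hx, hvt, hxt, sub_zero]⟩, by
      change (t (a * (v.toCLM - x))).re = m
      rw [q2, q3, sub_zero]⟩
    ⟨1/2, 1/2, by norm_num, by norm_num, by norm_num, by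
      rw [smul_add, smul_sub, add_add_sub_cancel, ← add_smul]; norm_num⟩
  have h6 : v.toCLM + x = v.toCLM := congrArg ContinuousLinearMapWOT.toCLM key
  exact left_eq_add.1 h6.symm

end Vale.Agent.P085.H551
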