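import Vale.Agent.P085.H551.Thr

set_option autoImplicit false
set_option linter.unusedSectionVars false

open scoped InnerProductSpace Topology ComplexOrder

namespace Vale.Agent.P085.H551

open Vale.Agent.P085 Vale.Agent.P085.H598

variable {H : Type*} [NormedAddCommGroup H] [InnerProductSpace ℂ H] [CompleteSpace H]

/-- `a` and `b` generate a von Neumann algebra containing `Q` -/
def Gen2 (Q : VonNeumannAlgebra H) (a b : H →L[ℂ] H) : Prop :=
  ∀ N : VonNeumannAlgebra H, a ∈ N → b ∈ N → Q ≤ N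

/-- real scalars -/
noncomputable def sc (H : Type*) [NormedAddCommGroup H] [InnerProductSpace ℂ H] [CompleteSpace H]
    (c : ℝ) : H →L[ℂ] H := (c : ℂ) • 1

theorem sc_mem (Q : VonNeumannAlgebra H) (c : ℝ) : sc H c ∈ Q := vn_smul_mem Q _ (one_mem Q)

theorem sc_star (c : ℝ) : star (sc H c) = sc H c := by
  unfold sc
  rw [star_smul, star_one]; simp only [RCLike.star_def, Complex.conj_ofReal]

theorem sc_mul (c : ℝ) (x : H →L[ℂ] H) : sc H c * x = (c : ℂ) • x := by
  unfold sc; rw [smul_mul_assoc, one_mul]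

theorem mul_sc (c : ℝ) (x : H →L[ℂ] H) : x * sc H c = (c : ℂ) • x := by
  unfold sc; rw [mul_smul_comm, mul_one]

theorem sc_comm (c : ℝ) (x : H →L[ℂ] H) : sc H c * x = x * sc H c := by
  rw [sc_mul, mul_sc]

theorem sc_add (c d : ℝ) : sc H (c + d) = sc H c + sc H d := by
  unfold sc; push_cast; rw [add_smul]

theorem sc_sub (c d : ℝ) : sc H (c - d) = sc H c - sc H d := by
  unfold sc; push_cast; rw [sub_smul]

theorem sc_nonneg {c : ℝ} (hc : 0 ≤ c) : 0 ≤ sc H c := smul_nonneg' hc zero_le_one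

theorem sc_sub_nonneg {c : ℝ} {x : H →L[ℂ] H} (hx : star x = x) (h : ‖x‖ ≤ c) :
    0 ≤ sc H c - x := by
  have h3 := IsSelfAdjoint.le_algebraMap_norm_self (a := x) hx
  have h4 : (0 : H →L[ℂ] H) ≤ sc H (c - ‖x‖) := sc_nonneg (by linarith)
  have h5 : sc H (c - ‖x‖) = sc H c - algebraMap ℝ (H →L[ℂ] H) ‖x‖ := by
    rw [sc_sub, Algebra.algebraMap_eq_smul_one]
    rfl
  rw [h5] at h4
  exact sub_nonneg.2 (h3.trans (sub_nonneg.1 h4))

theorem sc_add_nonneg {c : ℝ} {x : H →L[ℂ] H} (hx : star x = x) (h : ‖x‖ ≤ c) :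
    0 ≤ sc H c + x := by
  have := sc_sub_nonneg (x := -x) (c := c) (by rw [star_neg, hx]) (by rwa [norm_neg])
  rwa [sub_neg_eq_add] at this

theorem norm_le_of_sc {c : ℝ} (hc : 0 < c) {x : H →L[ℂ] H} (hx : star x = x) (h1 : 0 ≤ sc H c - x)
    (h2 : 0 ≤ sc H c + x) : ‖x‖ ≤ c := by
  have hc0 : (c : ℂ) ≠ 0 := by exact_mod_cast hc.ne'
  have e0 : ((c⁻¹ : ℝ) : ℂ) • sc H c = 1 := by
    unfold sc; rw [smul_smul, ← Complex.ofReal_mul, inv_mul_cancel₀ hc.ne', Complex.ofReal_one,
      one_smul]
  have h : ‖((c⁻¹ : ℝ) : ℂ) • x‖ ≤ 1 := by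
    apply norm_le_one_of_bounds
    · rw [star_smul, hx]; simp only [RCLike.star_def, Complex.conj_ofReal]
    · have := smul_nonneg' (r := c⁻¹) (by positivity) h2
      rwa [smul_add, e0] at this
    · have := smul_nonneg' (r := c⁻¹) (by positivity) h1
      rwa [smul_sub, e0] at this
  rw [norm_smul, Complex.norm_real, Real.norm_eq_abs, abs_of_pos (by positivity),
    inv_mul_le_iff₀ hc, mul_one] at h
  exact h

/-- the splitting lemma for a given projection of trace `1/2` -/
theorem exists_split_at (Q : VonNeumannAlgebra H) {t : (H →L[ℂ] H) → ℂ} (ht : IsTraceOn Q t)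
    (hfac : IsFac Q) {P b : H →L[ℂ] H} (hP : P ∈ Q) (hPs : star P = P)
    (hPP : P * P = P) (htP : t P = 1 / 2) (hb : b ∈ Q) :
    ∃ e ∈ Q, e * e = 0 ∧ e * star e = P ∧ star e * e = 1 - P ∧
      ∃ z ∈ relComm Q e, 0 ≤ z ∧ (e * star e) * b * (star e * e) = z * e := by
  obtain ⟨c, hcdef⟩ : ∃ c, c = P * b * (1 - P) := ⟨_, rfl⟩
  have hcQ : c ∈ Q := by
    rw [hcdef]; exact mul_mem (mul_mem hP hb) (sub_mem (one_mem Q) hP)
  have hPc : P * c = c := by rw [hcdef, ← mul_assoc, ← mul_assoc, hPP]
  have hcP : c * P = 0 := by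
    rw [hcdef, mul_assoc, sub_mul, one_mul, hPP, sub_self, mul_zero]
  obtain ⟨e, heQ, he1, he2, hec, hPe, heP⟩ := exists_partial_isometry Q ht hfac hP hPs hPP htP hcQ hPc hcP
  obtain ⟨m, hm⟩ : ∃ m, m = CFC.sqrt (star c * c) := ⟨_, rfl⟩
  rw [← hm] at hec
  have hmQ : m ∈ Q := by rw [hm]; exact sqrt_mem Q (mul_mem (star_mem hcQ) hcQ)
  have hm0 : 0 ≤ m := by rw [hm]; exact CFC.sqrt_nonneg _
  have hms : star m = m := (IsSelfAdjoint.of_nonneg hm0).star_eq
  have hmm : m * m = star c * c := by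
    rw [hm]; exact CFC.sqrt_mul_sqrt_self _ (star_mul_self_nonneg c)
  have hmP : m * P = 0 := by
    have h1 : star (m * P) * (m * P) = 0 := by
      rw [star_mul, hms]
      calc star P * m * (m * P) = star P * (m * m) * P := by simp only [mul_assoc]
        _ = star P * star c * (c * P) := by rw [hmm]; simp only [mul_assoc]
        _ = 0 := by rw [hcP, mul_zero]
    exact (CStarRing.star_mul_self_eq_zero_iff _).1 h1
  have hee : e * e = 0 := by
    calc e * e = e * (P * e) := by rw [hPe]
      _ = 0 := by rw [← mul_assoc, heP, zero_mul]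
  have hPm : P * m = 0 := by
    have := congrArg star hmP
    simpa only [star_mul, hPs, hms, star_zero] using this
  have hees : star e * star e = 0 := by
    have := congrArg star hee; simpa only [star_mul, star_zero] using this
  have hme : m * e = 0 := by rw [← hPe, ← mul_assoc, hmP, zero_mul]
  have hem : star e * m = 0 := by
    have := congrArg star hme; simpa only [star_mul, hms, star_zero] using this
  have hm1 : m * (1 - P) = m := by rw [mul_sub, mul_one, hmP, sub_zero]
  have h1m : (1 - P) * m = m := by rw [sub_mul, one_mul, hPm, sub_zero]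
  have hze : (e * m * star e + m) * e = c := by
    rw [add_mul, hme, add_zero, mul_assoc, he2, mul_assoc, hm1, hec]
  refine ⟨e, heQ, hee, he1, he2, e * m * star e + m, ⟨?_, ?_, ?_⟩, ?_, ?_⟩
  · exact add_mem (mul_mem (mul_mem heQ hmQ) (star_mem heQ)) hmQ
  · rw [hze, mul_add, ← mul_assoc, ← mul_assoc, hee, zero_mul, zero_mul, zero_add, hec]
  · rw [add_mul, mul_assoc, hees, mul_zero, zero_add, mul_add, hem, add_zero, ← mul_assoc,
      ← mul_assoc, he2, h1m]
  · exact add_nonneg (star_right_conjugate_nonneg hm0 e) hm0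
  · rw [he1, he2, ← hcdef, hze]

/-- a Sylvester equation with separated coefficients -/
theorem sylvester {α β D : H →L[ℂ] H} {c d : ℝ} (hcd : c < d) (hα : 0 ≤ sc H c - α)
    (hβ : 0 ≤ β - sc H d) (h : α * D = D * β) : D = 0 := by
  obtain ⟨W, hW⟩ : ∃ W, W = star D * D := ⟨_, rfl⟩
  have hW0 : 0 ≤ W := hW ▸ star_mul_self_nonneg D
  have hWs : star W = W := (IsSelfAdjoint.of_nonneg hW0).star_eq
  have hαs : star α = α := by
    have h1 := (IsSelfAdjoint.of_nonneg hα).star_eq
    rw [star_sub, sc_star] at h1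
    exact sub_right_injective h1
  have hβs : star β = β := by
    have h1 := (IsSelfAdjoint.of_nonneg hβ).star_eq
    rw [star_sub, sc_star] at h1
    exact sub_left_injective h1
  have h1 : W * β = star D * α * D := by rw [hW, mul_assoc, ← h, mul_assoc]
  have h2 : W * β = β * W := by
    have h3 := congrArg star h1
    rw [star_mul, hWs, hβs, star_mul, star_mul, star_star, hαs, ← mul_assoc] at h3
    rw [h1, h3]
  have h3 : 0 ≤ W * (β - sc H d) := by
    apply Commute.mul_nonneg hW0 hβ
    change W * (β - sc H d) = (β - sc H d) * W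
    rw [mul_sub, sub_mul, h2, sc_comm]
  have h4 : 0 ≤ star D * (sc H c - α) * D := star_left_conjugate_nonneg hα D
  have h5 : W * (β - sc H d) + star D * (sc H c - α) * D = -(((d - c : ℝ) : ℂ) • W) := by
    rw [mul_sub, h1, mul_sub, sub_mul, mul_sc, mul_sc, smul_mul_assoc, ← hW]
    push_cast
    module
  have h6 := add_nonneg h3 h4
  rw [h5] at h6
  have h7 : 0 ≤ ((d - c : ℝ) : ℂ) • W := smul_nonneg' (by linarith) hW0
  have h8 : ((d - c : ℝ) : ℂ) • W = 0 := le_antisymm (neg_nonneg.1 h6) h7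
  have h9 : W = 0 := by
    rcases smul_eq_zero.1 h8 with h | h
    · exfalso
      have : d - c = 0 := by exact_mod_cast h
      linarith
    · exact h
  exact (CStarRing.star_mul_self_eq_zero_iff D).1 (hW ▸ h9)

/-- a projection is recovered from an operator whose two diagonal blocks have separated
spectra -/
theorem proj_mem_of_sep (N : VonNeumannAlgebra H) {P α β : H →L[ℂ] H} (hPP : P * P = P)
    (hPs : star P = P) (hα : α * P = P * α) (hβ : β * P = P * β) (hX : α * P + β * (1 - P) ∈ N)
    (h : ∀ D : H →L[ℂ] H, α * D = D * β → D = 0) : P ∈ N := by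
  obtain ⟨X, hXdef⟩ : ∃ X, X = α * P + β * (1 - P) := ⟨_, rfl⟩
  rw [← hXdef] at hX
  have hP0 : P * (1 - P) = 0 := by rw [mul_sub, mul_one, hPP, sub_self]
  have hQ : (1 - P) * (1 - P) = 1 - P := by
    rw [mul_sub, mul_one, sub_mul, one_mul, hPP, sub_self, sub_zero]
  have hβQ : β * (1 - P) = (1 - P) * β := by rw [mul_sub, sub_mul, hβ, mul_one, one_mul]
  have hPX : P * X = α * P := by
    rw [hXdef, mul_add, ← mul_assoc, ← hα, mul_assoc, hPP, hβQ, ← mul_assoc, hP0, zero_mul,
      add_zero]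
  have hXQ : X * (1 - P) = (1 - P) * β := by
    rw [hXdef, add_mul, mul_assoc, hP0, mul_zero, zero_add, mul_assoc, hQ, hβQ]
  have key : ∀ y ∈ N.commutant, P * y * (1 - P) = 0 := by
    intro y hy
    have hc : X * y = y * X := vn_commutes N hX hy
    apply h
    calc α * (P * y * (1 - P)) = P * (X * y) * (1 - P) := by
          rw [← mul_assoc P, hPX]; simp only [mul_assoc]
      _ = P * y * (X * (1 - P)) := by rw [hc]; simp only [mul_assoc]
      _ = P * y * (1 - P) * β := by rw [hXQ]; simp only [mul_assoc]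
  apply vn_mem_of_commutes
  intro y hy
  have h1 := key y hy
  have h2 := key (star y) (star_mem hy)
  have h3 : (1 - P) * y * P = 0 := by
    have := congrArg star h2
    simpa only [mul_assoc, star_mul, star_sub, star_one, hPs, star_star, star_zero] using this
  have e1 : P * y = P * y * P := by
    rw [mul_sub, mul_one, sub_eq_zero] at h1; exact h1
  have e2 : y * P = P * y * P := by
    rw [sub_mul, one_mul, sub_mul, sub_eq_zero] at h3; exact h3
  rw [e1, e2]

/-- generators of the relative commutant give generators of the whole algebra -/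
theorem gen_step {Q : VonNeumannAlgebra H} {e : H →L[ℂ] H} (he2 : e * e = 0)
    (hee : e * star e + star e * e = 1) (heQ : e ∈ Q) {α α' β β' z : H →L[ℂ] H}
    (hα : α ∈ relComm Q e) (hα' : α' ∈ relComm Q e) (hβ : β ∈ relComm Q e)
    (hβ' : β' ∈ relComm Q e) (hz : z ∈ relComm Q e) (hz0 : 0 ≤ z) {δ : ℝ} (hδ : 0 < δ)
    (hsep : ∀ D : H →L[ℂ] H, α * D = D * α' → D = 0)
    (hgen : Gen2 (relComm Q e) α β) :
    Gen2 Q (α * (e * star e) + α' * (star e * e))
      (β * (e * star e) + (z + sc H δ) * e + (z + sc H δ) * star e + β' * (star e * e)) := by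
  intro N ha hb
  obtain ⟨P, hP⟩ : ∃ P, P = e * star e := ⟨_, rfl⟩
  have hR : star e * e = 1 - P := by rw [hP, mu_one_sub hee]
  have hPP : P * P = P := by rw [hP]; exact mu_P_sq he2 hee
  have hPs : star P = P := by rw [hP, star_mul, star_star]
  have cP : ∀ x ∈ relComm Q e, x * P = P * x := fun x hx => by
    rw [hP, ← mul_assoc, hx.2.1, mul_assoc, hx.2.2, mul_assoc]
  rw [hR, ← hP] at ha hb
  have hPN : P ∈ N := proj_mem_of_sep N hPP hPs (cP α hα) (cP α' hα') ha hsep
  have hPe : P * e = e := by rw [hP]; exact mu_ese he2 hee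
  have heP : e * P = 0 := by rw [hP, ← mul_assoc, he2, zero_mul]
  have hse : star e * P = star e := by
    have := congrArg star hPe; rwa [star_mul, hPs] at this
  have hPse : P * star e = 0 := by
    have := congrArg star heP; rwa [star_mul, hPs, star_zero] at this
  have hP0 : P * (1 - P) = 0 := by rw [mul_sub, mul_one, hPP, sub_self]
  have hP0' : (1 - P) * P = 0 := by rw [sub_mul, one_mul, hPP, sub_self]
  obtain ⟨w, hw⟩ : ∃ w, w = z + sc H δ := ⟨_, rfl⟩
  rw [← hw] at hb
  have hwR : w ∈ relComm Q e := by rw [hw]; exact add_mem hz (sc_mem _ δ)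
  have hwP := cP w hwR
  have hw0 : 0 ≤ w := by rw [hw]; exact add_nonneg hz0 (sc_nonneg hδ.le)
  have hws : star w = w := (IsSelfAdjoint.of_nonneg hw0).star_eq
  obtain ⟨b, hbdef⟩ : ∃ b, b = β * P + w * e + w * star e + β' * (1 - P) := ⟨_, rfl⟩
  rw [← hbdef] at hb
  -- the off-diagonal entry
  have hPb : P * b = β * P + w * e := by
    have t1 : P * (β * P) = β * P := by rw [← mul_assoc, ← cP β hβ, mul_assoc, hPP]
    have t2 : P * (w * e) = w * e := by rw [← mul_assoc, ← hwP, mul_assoc, hPe]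
    have t3 : P * (w * star e) = 0 := by rw [← mul_assoc, ← hwP, mul_assoc, hPse, mul_zero]
    have t4 : P * (β' * (1 - P)) = 0 := by rw [← mul_assoc, ← cP β' hβ', mul_assoc, hP0, mul_zero]
    rw [hbdef, mul_add, mul_add, mul_add, t1, t2, t3, t4, add_zero, add_zero]
  have hPbP : P * b * P = β * P := by
    rw [hPb, add_mul, mul_assoc, hPP, mul_assoc, heP, mul_zero, add_zero]
  have hPbR : P * b * (1 - P) = w * e := by
    rw [mul_sub, mul_one, hPbP, hPb]; abel
  have hweN : w * e ∈ N := by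
    rw [← hPbR]; exact mul_mem (mul_mem hPN hb) (sub_mem (one_mem N) hPN)
  -- the positive part of the entry
  have hwPN : w * P ∈ N := by
    have h0 : 0 ≤ w * P := nonneg_mul_proj hw0 hPs hPP hwP
    have h1 : (w * P) * (w * P) = (w * e) * star (w * e) := by
      calc (w * P) * (w * P) = w * (P * (w * P)) := mul_assoc _ _ _
        _ = w * (P * (P * w)) := by rw [hwP]
        _ = w * (P * w) := by rw [← mul_assoc P P, hPP]
        _ = (w * e) * star (w * e) := by
            rw [star_mul, hws, mul_assoc w e, ← mul_assoc e, ← hP]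
    have h2 : CFC.sqrt ((w * e) * star (w * e)) = w * P := by
      rw [← h1]
      exact CFC.sqrt_mul_self (w * P) h0
    rw [← h2]
    exact sqrt_mem N (mul_mem hweN (star_mem hweN))
  have heN : e ∈ N := by
    apply vn_mem_of_commutes
    intro y hy
    have hyP : P * y = y * P := vn_commutes N hPN hy
    have hyw : w * P * y = y * (w * P) := vn_commutes N hwPN hy
    have hye : w * e * y = y * (w * e) := vn_commutes N hweN hy
    have h1 : w * (P * y * e - e * y) = 0 := by
      calc w * (P * y * e - e * y) = (w * P * y) * e - w * e * y := by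
            rw [mul_sub]; simp only [mul_assoc]
        _ = y * (w * (P * e)) - y * (w * e) := by rw [hyw, hye]; simp only [mul_assoc]
        _ = 0 := by rw [hPe, sub_self]
    have h2 : P * y * e - e * y = 0 := by
      apply eq_zero_of_one_add (p := ((δ⁻¹ : ℝ) : ℂ) • z) (smul_nonneg' (by positivity) hz0)
      have h3 : (1 : H →L[ℂ] H) + ((δ⁻¹ : ℝ) : ℂ) • z = ((δ⁻¹ : ℝ) : ℂ) • w := by
        rw [hw, smul_add, sc, smul_smul, ← Complex.ofReal_mul, inv_mul_cancel₀ hδ.ne',
          Complex.ofReal_one, one_smul, add_comm]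
      rw [h3, smul_mul_assoc, h1, smul_zero]
    rw [sub_eq_zero, hyP, mul_assoc, hPe] at h2
    exact h2
  have hβN : β ∈ N := by
    apply mem_of_P_mul he2 hee N heN hβ.2.1
    rw [← hP, ← cP β hβ, ← hPbP]
    exact mul_mem (mul_mem hPN hb) hPN
  have hαN : α ∈ N := by
    apply mem_of_P_mul he2 hee N heN hα.2.1
    have h1 : (α * P + α' * (1 - P)) * P = α * P := by
      rw [add_mul, mul_assoc, hPP, mul_assoc, hP0', mul_zero, add_zero]
    rw [← hP, ← cP α hα, ← h1]
    exact mul_mem ha hPN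
  exact le_of_unit he2 hee heQ heN (hgen N hαN hβN)

end Vale.Agent.P085.H551
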