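import Vale.Agent.P085.H551.Ord
import Mathlib.Analysis.SpecialFunctions.ContinuousFunctionalCalculus.PosPart.Basic

set_option autoImplicit false
set_option linter.unusedSectionVars false

open scoped InnerProductSpace Topology ComplexOrder

namespace Vale.Agent.P085.H551

open Vale.Agent.P085

variable {H : Type*} [NormedAddCommGroup H] [InnerProductSpace ℂ H] [CompleteSpace H]

/-- the negative part -/
theorem exists_negPart (Q : VonNeumannAlgebra H) {y : H →L[ℂ] H} (hy : y ∈ Q) (hys : star y = y) :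
    ∃ n ∈ Q, 0 ≤ n ∧ star n = n ∧ y * n = -(n * n) ∧ (∀ c, c * y = y * c → c * n = n * c) ∧
      (n = 0 → 0 ≤ y) := by
  have hc : ∀ c : H →L[ℂ] H, c * y = y * c → c * y⁻ = y⁻ * c := by
    intro c hc
    have h1 : Commute y c := hc.symm
    rw [CFC.negPart_def]
    exact (h1.cfcₙ_real _).eq.symm
  have h0 : 0 ≤ y⁻ := CFC.negPart_nonneg y
  have hs : IsSelfAdjoint y := hys
  have hd : y⁺ - y⁻ = y := CFC.posPart_sub_negPart y hs
  refine ⟨y⁻, ?_, h0, (IsSelfAdjoint.of_nonneg h0).star_eq, ?_, hc, ?_⟩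
  · apply vn_mem_of_commutes
    intro c hcQ
    exact hc c (vn_commutes Q hy hcQ).symm
  · calc y * y⁻ = (y⁺ - y⁻) * y⁻ := by rw [hd]
      _ = -(y⁻ * y⁻) := by rw [sub_mul, CFC.posPart_mul_negPart, zero_sub]
  · intro hn
    rw [← hd, hn, sub_zero]
    exact CFC.posPart_nonneg y

theorem nonneg_mul_proj {x P : H →L[ℂ] H} (hx : 0 ≤ x) (hPs : star P = P) (hPP : P * P = P)
    (hxP : x * P = P * x) : 0 ≤ x * P := by
  have h := star_left_conjugate_nonneg hx P
  rwa [hPs, ← hxP, mul_assoc, hPP] at h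

theorem one_sub_nonneg_of_norm {x : H →L[ℂ] H} (hx : star x = x) (h : ‖x‖ ≤ 1) : 0 ≤ 1 - x := by
  have h3 := IsSelfAdjoint.le_algebraMap_norm_self (a := x) hx
  have h1 : x ≤ 1 := by
    refine h3.trans ?_
    rw [Algebra.algebraMap_eq_smul_one]
    have h4 : (0 : H →L[ℂ] H) ≤ ((1 - ‖x‖ : ℝ) : ℂ) • (1 : H →L[ℂ] H) :=
      smul_nonneg' (by linarith only [h]) zero_le_one
    have h5 : ((1 - ‖x‖ : ℝ) : ℂ) • (1 : H →L[ℂ] H) = 1 - ‖x‖ • (1 : H →L[ℂ] H) := by
      push_cast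
      rw [sub_smul, one_smul]
      rfl
    rw [h5] at h4
    exact sub_nonneg.1 h4
  exact sub_nonneg.2 h1

/-- positivity of a corner from traces -/
theorem corner_nonneg (Q : VonNeumannAlgebra H) {t : (H →L[ℂ] H) → ℂ} (ht : IsTraceOn Q t)
    {E c : H →L[ℂ] H} (hE : E ∈ Q) (hEs : star E = E) (hEE : E * E = E) (hc : c ∈ Q)
    (hcs : star c = c) (hcE : c * E = E * c)
    (h : ∀ g ∈ Q, 0 ≤ g → 0 ≤ E - g → c * g = g * c → 0 ≤ (t (c * g)).re) :
    0 ≤ c * E := by
  obtain ⟨y, hy⟩ : ∃ y, y = c * E := ⟨_, rfl⟩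
  have hyQ : y ∈ Q := hy ▸ mul_mem hc hE
  have hys : star y = y := by rw [hy, star_mul, hEs, hcs, hcE]
  obtain ⟨n, hnQ, hn0, hns, hyn, hcomm, hfin⟩ := exists_negPart Q hyQ hys
  have hcn : c * n = n * c := hcomm c (by rw [hy, hcE, ← mul_assoc, hcE])
  have hyn' : y * n = n * y := hcomm y rfl
  have hnE : n * (1 - E) = 0 := by
    have h1 : star (n * (1 - E)) * (n * (1 - E)) = 0 := by
      have hyE : y * (1 - E) = 0 := by
        rw [hy, mul_assoc, mul_sub, mul_one, hEE, sub_self, mul_zero]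
      calc star (n * (1 - E)) * (n * (1 - E)) = (1 - E) * (n * n) * (1 - E) := by
            rw [star_mul, hns, star_sub, star_one, hEs]; simp only [mul_assoc]
        _ = -((1 - E) * (y * n * (1 - E))) := by
            rw [hyn]; simp only [neg_mul, mul_neg, neg_neg, mul_assoc]
        _ = 0 := by rw [hyn', mul_assoc n, hyE, mul_zero, mul_zero, neg_zero]
    exact (CStarRing.star_mul_self_eq_zero_iff _).1 h1
  have hnE1 : n * E = n := by
    rw [mul_sub, mul_one, sub_eq_zero] at hnE; exact hnE.symm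
  have hEn : E * n = n := by
    have := congrArg star hnE1
    rwa [star_mul, hns, hEs] at this
  have hcnn : c * n = -(n * n) := by rw [← hyn, hy, mul_assoc, hEn]
  obtain ⟨k, hk⟩ : ∃ k : ℝ, k = (‖n‖ + 1)⁻¹ := ⟨_, rfl⟩
  have hk0 : 0 < k := by rw [hk]; positivity
  obtain ⟨g, hg⟩ : ∃ g, g = (k : ℂ) • n := ⟨_, rfl⟩
  have hgs : star g = g := by
    rw [hg, star_smul, hns]; simp
  have hgn : ‖g‖ ≤ 1 := by
    rw [hg, norm_smul, Complex.norm_real, Real.norm_eq_abs, abs_of_pos hk0, hk,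
      inv_mul_le_iff₀ (by positivity)]
    linarith
  have h1 := h g (hg ▸ vn_smul_mem Q _ hnQ) (hg ▸ smul_nonneg' hk0.le hn0) (by
      have h2 := star_left_conjugate_nonneg (one_sub_nonneg_of_norm hgs hgn) E
      have h3 : star E * (1 - g) * E = E - g := by
        rw [hEs, mul_sub, mul_one, sub_mul, hEE, hg, mul_smul_comm, hEn, smul_mul_assoc, hnE1]
      rwa [h3] at h2)
    (by rw [hg, mul_smul_comm, smul_mul_assoc, hcn])
  rw [hg, mul_smul_comm, hcnn, ht.smul _ _ (neg_mem (mul_mem hnQ hnQ)),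
    ht.neg (mul_mem hnQ hnQ), Complex.re_ofReal_mul, Complex.neg_re] at h1
  have h4 := ht.nonneg n hnQ
  rw [hns] at h4
  have h5 : (t (n * n)).re = 0 := by
    have h6 := (Complex.le_def.1 h4).1
    rw [Complex.zero_re] at h6
    nlinarith
  have h6 : t (n * n) = 0 := by
    apply Complex.ext
    · rw [h5]; rfl
    · exact (Complex.le_def.1 h4).2.symm
  have h7 : n = 0 := ht.faithful n hnQ (by rw [hns, h6])
  rw [← hy]
  exact hfin h7

/-- **ordered halving**: a projection of trace `1/2` commuting with the self-adjoint element `a`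
such that `a ≥ s` on it and `a ≤ s` on its complement -/
theorem exists_ordered_half (Q : VonNeumannAlgebra H) {t : (H →L[ℂ] H) → ℂ} (ht : IsTraceOn Q t)
    (hmin : NoMinimal Q) {a : H →L[ℂ] H} (ha : a ∈ Q) (has : star a = a) :
    ∃ P ∈ Q, star P = P ∧ P * P = P ∧ a * P = P * a ∧ t P = 1 / 2 ∧
      ∃ s : ℝ, 0 ≤ (a - (s : ℂ) • 1) * P ∧ 0 ≤ ((s : ℂ) • 1 - a) * (1 - P) := by
  obtain ⟨v, hvQ, hv1, hvs, hva, hvt, hext, hmax⟩ := exists_extreme_max Q ht ha
  have hv2 := sq_eq_one_of_extreme Q ht hmin ha has hvQ hv1 hvs hva hext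
  obtain ⟨P, hPdef⟩ : ∃ P, P = (1 / 2 : ℂ) • (1 + v) := ⟨_, rfl⟩
  have hP : P ∈ Q := hPdef ▸ vn_smul_mem Q _ (add_mem (one_mem Q) hvQ)
  have hPs : star P = P := by
    rw [hPdef, star_smul, star_add, star_one, hvs]
    simp only [one_div, star_inv₀, star_ofNat, smul_add]
  have hPP : P * P = P := by
    rw [hPdef, smul_mul_smul_comm, mul_add, add_mul, one_mul, add_mul, hv2, one_mul, mul_one]
    module
  have haP : a * P = P * a := by
    rw [hPdef, mul_smul_comm, smul_mul_assoc, mul_add, add_mul, hva, one_mul, mul_one]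
  have htP : t P = 1 / 2 := by
    rw [hPdef, ht.smul _ _ (add_mem (one_mem Q) hvQ), ht.add _ (one_mem Q) _ hvQ, ht.one, hvt]
    norm_num
  have hvP : v = (2 : ℂ) • P - 1 := by
    rw [hPdef, smul_smul]
    norm_num
  have hQ1 : (1 : H →L[ℂ] H) - P ∈ Q := sub_mem (one_mem Q) hP
  have ht1P : t (1 - P) = 1 / 2 := by
    rw [ht.sub (one_mem Q) hP, ht.one, htP]; norm_num
  have him : ∀ g ∈ Q, 0 ≤ g → ((t g).re : ℂ) = t g ∧ 0 ≤ (t g).re := by
    intro g hg hg0
    have h1 := ht.nonneg_of_nonneg hg hg0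
    have h2 := Complex.le_def.1 h1
    refine ⟨?_, h2.1⟩
    apply Complex.ext
    · simp
    · simpa using h2.2
  have exch : ∀ g ∈ Q, 0 ≤ g → 0 ≤ P - g → a * g = g * a → ∀ f ∈ Q, 0 ≤ f → 0 ≤ 1 - P - f →
      a * f = f * a → (t g).re * (t (a * f)).re ≤ (t f).re * (t (a * g)).re := by
    intro g hg hg0 hgP hga f hf hf0 hfP hfa
    obtain ⟨hgi, hgn⟩ := him g hg hg0
    obtain ⟨hfi, hfn⟩ := him f hf hf0
    obtain ⟨S, hS⟩ : ∃ S, S = (t f).re + (t g).re := ⟨_, rfl⟩
    rcases (add_nonneg hfn hgn).eq_or_lt with h0 | h0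
    · have h1 : (t g).re = 0 := by linarith
      have h2 : (t f).re = 0 := by linarith
      rw [h1, h2]; simp
    rw [← hS] at h0
    obtain ⟨c, hc⟩ : ∃ c, c = (t f).re / S := ⟨_, rfl⟩
    obtain ⟨d, hd⟩ : ∃ d, d = (t g).re / S := ⟨_, rfl⟩
    have hc0 : 0 ≤ c := hc ▸ div_nonneg hfn h0.le
    have hd0 : 0 ≤ d := hd ▸ div_nonneg hgn h0.le
    have hcd : c + d = 1 := by
      rw [hc, hd, ← add_div, ← hS, div_self h0.ne']
    have hcS : c * S = (t f).re := by rw [hc]; exact div_mul_cancel₀ _ h0.ne'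
    have hdS : d * S = (t g).re := by rw [hd]; exact div_mul_cancel₀ _ h0.ne'
    have hcg : c * (t g).re = d * (t f).re := by rw [← hcS, ← hdS]; ring
    obtain ⟨w, hw⟩ : ∃ w, w = v - ((2 * c : ℝ) : ℂ) • g + ((2 * d : ℝ) : ℂ) • f := ⟨_, rfl⟩
    have hgs : star g = g := (IsSelfAdjoint.of_nonneg hg0).star_eq
    have hfs : star f = f := (IsSelfAdjoint.of_nonneg hf0).star_eq
    have hws : star w = w := by
      rw [hw, star_add, star_sub, star_smul, star_smul, hvs, hgs, hfs]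
      simp only [RCLike.star_def, Complex.conj_ofReal]
    have hwQ : w ∈ Q := by
      rw [hw]; exact add_mem (sub_mem hvQ (vn_smul_mem Q _ hg)) (vn_smul_mem Q _ hf)
    have hw1 : ‖w‖ ≤ 1 := by
      apply norm_le_one_of_bounds hws
      · have e1 : 1 + w = ((2 : ℝ) : ℂ) • (P - g) + (((2 * (1 - c) : ℝ) : ℂ) • g +
            ((2 * d : ℝ) : ℂ) • f) := by
          rw [hw, hvP]; push_cast; module
        rw [e1]
        exact add_nonneg (smul_nonneg' (by norm_num) hgP) (add_nonneg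
          (smul_nonneg' (by linarith) hg0) (smul_nonneg' (by linarith) hf0))
      · have e1 : 1 - w = ((2 : ℝ) : ℂ) • (1 - P - f) + (((2 * (1 - d) : ℝ) : ℂ) • f +
            ((2 * c : ℝ) : ℂ) • g) := by
          rw [hw, hvP]; push_cast; module
        rw [e1]
        exact add_nonneg (smul_nonneg' (by norm_num) hfP) (add_nonneg
          (smul_nonneg' (by linarith) hf0) (smul_nonneg' (by linarith) hg0))
    have hwa : a * w = w * a := by
      rw [hw]; simp only [mul_add, add_mul, mul_sub, sub_mul, mul_smul_comm, smul_mul_assoc,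
        hva, hga, hfa]
    have hwt : t w = 0 := by
      rw [hw, ht.add _ (sub_mem hvQ (vn_smul_mem Q _ hg)) _ (vn_smul_mem Q _ hf),
        ht.sub hvQ (vn_smul_mem Q _ hg), ht.smul _ _ hg, ht.smul _ _ hf, hvt, ← hgi, ← hfi]
      have : ((c : ℂ) * (((t g).re : ℝ) : ℂ)) = (d : ℂ) * (((t f).re : ℝ) : ℂ) := by
        exact_mod_cast hcg
      push_cast
      linear_combination -2 * this
    have hag := mul_mem ha hg
    have haf := mul_mem ha hf
    have hm := hmax w hwQ hw1 hws hwa hwt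
    have e2 : (t (a * w)).re = (t (a * v)).re - 2 * c * (t (a * g)).re +
        2 * d * (t (a * f)).re := by
      rw [hw, mul_add, mul_sub, mul_smul_comm, mul_smul_comm,
        ht.add _ (sub_mem (mul_mem ha hvQ) (vn_smul_mem Q _ hag)) _ (vn_smul_mem Q _ haf),
        ht.sub (mul_mem ha hvQ) (vn_smul_mem Q _ hag), ht.smul _ _ hag, ht.smul _ _ haf,
        Complex.add_re, Complex.sub_re, Complex.re_ofReal_mul, Complex.re_ofReal_mul]
    rw [e2] at hm
    have hm2 : d * (t (a * f)).re ≤ c * (t (a * g)).re := by linarith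
    calc (t g).re * (t (a * f)).re = S * (d * (t (a * f)).re) := by rw [← hdS]; ring
      _ ≤ S * (c * (t (a * g)).re) := mul_le_mul_of_nonneg_left hm2 h0.le
      _ = (t f).re * (t (a * g)).re := by rw [← hcS]; ring
  have hP0 : 0 ≤ P := by
    have := star_mul_self_nonneg P
    rwa [hPs, hPP] at this
  have h1P0 : 0 ≤ 1 - P := by
    have := star_mul_self_nonneg (1 - P)
    rwa [star_sub, star_one, hPs, mul_sub, mul_one, sub_mul, one_mul, hPP, sub_self, sub_zero] at this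
  have ha1P : a * (1 - P) = (1 - P) * a := by rw [mul_sub, sub_mul, mul_one, one_mul, haP]
  obtain ⟨G, hG⟩ : ∃ G : Set ℝ, G = {r : ℝ | ∃ g ∈ Q, 0 ≤ g ∧ 0 ≤ P - g ∧ a * g = g * a ∧
    0 < (t g).re ∧ r = (t (a * g)).re / (t g).re} := ⟨_, rfl⟩
  have hGne : G.Nonempty := ⟨(t (a * P)).re / (t P).re, by
    rw [hG]
    exact ⟨P, hP, hP0, by rw [sub_self], haP, by rw [htP]; norm_num, rfl⟩⟩
  have hGlow : ∀ f ∈ Q, 0 ≤ f → 0 ≤ 1 - P - f → a * f = f * a → 0 < (t f).re → ∀ r ∈ G,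
      (t (a * f)).re / (t f).re ≤ r := by
    intro f hf hf0 hfP hfa hft r hr
    rw [hG] at hr
    obtain ⟨g, hg, hg0, hgP, hga, hgt, rfl⟩ := hr
    have := exch g hg hg0 hgP hga f hf hf0 hfP hfa
    rw [div_le_div_iff₀ hft hgt]
    linarith
  have hGb : BddBelow G := ⟨(t (a * (1 - P))).re / (t (1 - P)).re, fun r hr =>
    hGlow (1 - P) hQ1 h1P0 (by rw [sub_self]) ha1P (by rw [ht1P]; norm_num) r hr⟩
  obtain ⟨s, hs⟩ : ∃ s, s = sInf G := ⟨_, rfl⟩
  have hsmul : ∀ x ∈ Q, t ((s : ℂ) • x) = (s : ℂ) * t x := fun x hx => ht.smul _ _ hx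
  have hs1Q : (s : ℂ) • (1 : H →L[ℂ] H) ∈ Q := vn_smul_mem Q _ (one_mem Q)
  have hs1s : star ((s : ℂ) • (1 : H →L[ℂ] H)) = (s : ℂ) • 1 := by
    rw [star_smul, star_one]; simp only [RCLike.star_def, Complex.conj_ofReal]
  refine ⟨P, hP, hPs, hPP, haP, htP, s, ?_, ?_⟩
  · refine corner_nonneg Q ht hP hPs hPP (sub_mem ha hs1Q) (by rw [star_sub, has, hs1s])
      (by rw [sub_mul, mul_sub, haP, smul_mul_assoc, one_mul, mul_smul_comm, mul_one]) ?_
    intro g hg hg0 hgP hga
    have hga' : a * g = g * a := by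
      rw [sub_mul, mul_sub, smul_mul_assoc, one_mul, mul_smul_comm, mul_one] at hga
      exact sub_left_injective hga
    rw [sub_mul, smul_mul_assoc, one_mul, ht.sub (mul_mem ha hg) (vn_smul_mem Q _ hg), hsmul g hg,
      Complex.sub_re, Complex.re_ofReal_mul]
    rcases (him g hg hg0).2.eq_or_lt with h0 | h0
    · have h1 : t g = 0 := by rw [← (him g hg hg0).1, ← h0, Complex.ofReal_zero]
      have h2 : g = 0 := ht.eq_zero_of_nonneg hg hg0 h1
      rw [h2, mul_zero, ht.zero]; simp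
    · have h1 : s ≤ (t (a * g)).re / (t g).re := by
        rw [hs]
        refine csInf_le hGb ?_
        rw [hG]
        exact ⟨g, hg, hg0, hgP, hga', h0, rfl⟩
      rw [le_div_iff₀ h0] at h1
      linarith
  · refine corner_nonneg Q ht hQ1 (by rw [star_sub, star_one, hPs])
      (by rw [mul_sub, mul_one, sub_mul, one_mul, hPP, sub_self, sub_zero])
      (sub_mem hs1Q ha) (by rw [star_sub, has, hs1s])
      (by
        calc ((s : ℂ) • (1 : H →L[ℂ] H) - a) * (1 - P) = (s : ℂ) • (1 - P) - a * (1 - P) := by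
              rw [sub_mul, smul_mul_assoc, one_mul]
          _ = (1 - P) * ((s : ℂ) • (1 : H →L[ℂ] H) - a) := by
              rw [ha1P, mul_sub (1 - P), mul_smul_comm, mul_one]) ?_
    intro f hf hf0 hfP hfa
    have hfa' : a * f = f * a := by
      rw [sub_mul, mul_sub, smul_mul_assoc, one_mul, mul_smul_comm, mul_one] at hfa
      exact sub_right_injective hfa
    rw [sub_mul, smul_mul_assoc, one_mul, ht.sub (vn_smul_mem Q _ hf) (mul_mem ha hf), hsmul f hf,
      Complex.sub_re, Complex.re_ofReal_mul]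
    rcases (him f hf hf0).2.eq_or_lt with h0 | h0
    · have h1 : t f = 0 := by rw [← (him f hf hf0).1, ← h0, Complex.ofReal_zero]
      have h2 : f = 0 := ht.eq_zero_of_nonneg hf hf0 h1
      rw [h2, mul_zero, ht.zero]; simp
    · have h1 : (t (a * f)).re / (t f).re ≤ s := by
        rw [hs]
        exact le_csInf hGne fun r hr => hGlow f hf hf0 hfP hfa' h0 r hr
      rw [div_le_iff₀ h0] at h1
      linarith

end Vale.Agent.P085.H551
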